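import Vale.Agent.P354E.DIface

/-!
Small balls in the space of data are Baire spaces.
-/

open Set Filter Topology
open scoped ContDiff ENNReal

noncomputable section

namespace Vale.Agent.P354W

open Vale.Agent.P354E

theorem iter_sub {F G : ℝ → ℝ} (hF : ContDiff ℝ ∞ F) (hG : ContDiff ℝ ∞ G) (j : ℕ) (x : ℝ) :
    iteratedDeriv j (F - G) x = iteratedDeriv j F x - iteratedDeriv j G x :=
  iteratedDeriv_sub (hF.contDiffAt.of_le (by exact_mod_cast le_top))
    (hG.contDiffAt.of_le (by exact_mod_cast le_top))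

/-- Limits of sequences that are Cauchy for all weighted norms. -/
theorem lim_fun {s : ℝ} {F : ℕ → ℝ → ℝ} (hF : ∀ n, ContDiff ℝ ∞ (F n))
    (hC : ∀ (m : ℕ) (ε : ℝ), 0 < ε → ∃ N, ∀ n ≥ N, ∀ n' ≥ N,
      wn s m (F n - F n') ≤ ENNReal.ofReal ε) :
    ∃ G, ContDiff ℝ ∞ G ∧
      (∀ j x, Tendsto (fun n => iteratedDeriv j (F n) x) atTop (𝓝 (iteratedDeriv j G x))) ∧
      ∀ (m : ℕ) (ε : ℝ), 0 < ε → ∃ N, ∀ n ≥ N, wn s m (F n - G) ≤ ENNReal.ofReal ε := by
  have hw : ∀ (j : ℕ) (x : ℝ), 0 < √(1 + x ^ 2) ^ (s + j) := fun j x =>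
    Real.rpow_pos_of_pos (rho_pos x) _
  have hp : ∀ (m : ℕ) (ε : ℝ), 0 < ε → ∃ N, ∀ n ≥ N, ∀ n' ≥ N, ∀ j ≤ m, ∀ x,
      √(1 + x ^ 2) ^ (s + j) * |iteratedDeriv j (F n) x - iteratedDeriv j (F n') x| ≤ ε := by
    intro m ε hε
    obtain ⟨N, hN⟩ := hC m ε hε
    refine ⟨N, fun n hn n' hn' j hj x => ?_⟩
    rw [← iter_sub (hF n) (hF n')]
    exact le_of_wn hj hε.le (hN n hn n' hn') x
  have hcs : ∀ j x, ∃ y, Tendsto (fun n => iteratedDeriv j (F n) x) atTop (𝓝 y) := by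
    intro j x
    refine cauchySeq_tendsto_of_complete (Metric.cauchySeq_iff.2 fun ε hε => ?_)
    obtain ⟨N, hN⟩ := hp j (√(1 + x ^ 2) ^ (s + j) * (ε / 2)) (mul_pos (hw j x) (by positivity))
    refine ⟨N, fun n hn n' hn' => ?_⟩
    have := le_of_mul_le_mul_left (hN n hn n' hn' j le_rfl x) (hw j x)
    rw [Real.dist_eq]
    linarith
  choose g hg using hcs
  have hq : ∀ (m : ℕ) (ε : ℝ), 0 < ε → ∃ N, ∀ n ≥ N, ∀ j ≤ m, ∀ x,
      √(1 + x ^ 2) ^ (s + j) * |iteratedDeriv j (F n) x - g j x| ≤ ε := by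
    intro m ε hε
    obtain ⟨N, hN⟩ := hp m ε hε
    refine ⟨N, fun n hn j hj x => ?_⟩
    refine le_of_tendsto (((tendsto_const_nhds.sub (hg j x)).abs).const_mul _) ?_
    filter_upwards [eventually_ge_atTop N] with n' hn' using hN n hn n' hn' j hj x
  have hd : ∀ j x, HasDerivAt (g j) (g (j + 1) x) x := by
    intro j x
    have hc : Continuous fun y : ℝ => √(1 + y ^ 2) ^ (s + (j + 1 : ℕ)) :=
      Continuous.rpow_const (by fun_prop) fun y => Or.inl (rho_pos y).ne'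
    obtain ⟨c, hc0, hc1⟩ := (isCompact_closedBall x 1).exists_forall_le' hc.continuousOn
      (a := 0) fun y _ => hw (j + 1) y
    refine hasDerivAt_of_tendstoUniformlyOn (l := atTop) (s := Metric.ball x 1)
      (f := fun n => iteratedDeriv j (F n)) (f' := fun n => iteratedDeriv (j + 1) (F n))
      Metric.isOpen_ball ?_ (Eventually.of_forall fun n y _ => ?_) (fun y _ => hg j y)
      (Metric.mem_ball_self one_pos)
    · rw [Metric.tendstoUniformlyOn_iff]
      intro ε hε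
      obtain ⟨N, hN⟩ := hq (j + 1) (c * (ε / 2)) (by positivity)
      filter_upwards [eventually_ge_atTop N] with n hn y hy
      have h1 := hN n hn (j + 1) le_rfl y
      have h2 := mul_le_mul_of_nonneg_right (hc1 y (Metric.ball_subset_closedBall hy))
        (abs_nonneg (iteratedDeriv (j + 1) (F n) y - g (j + 1) y))
      have h3 := le_of_mul_le_mul_left (h2.trans h1) hc0
      rw [dist_comm, Real.dist_eq]
      linarith
    · rw [iteratedDeriv_succ]
      exact ((hF n).differentiable_iteratedDeriv j (by exact_mod_cast ENat.natCast_lt_top j)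
        y).hasDerivAt
  have he : ∀ j, iteratedDeriv j (g 0) = g j := by
    intro j
    induction j with
    | zero => exact iteratedDeriv_zero
    | succ j ih =>
      rw [iteratedDeriv_succ, ih]
      exact funext fun x => (hd j x).deriv
  have hG : ContDiff ℝ ∞ (g 0) := contDiff_of_differentiable_iteratedDeriv fun m _ => by
    rw [he]
    exact fun x => (hd m x).differentiableAt
  refine ⟨g 0, hG, fun j x => by rw [he]; exact hg j x, fun m ε hε => ?_⟩
  obtain ⟨N, hN⟩ := hq m (ε / (m + 1)) (by positivity)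
  refine ⟨N, fun n hn => (wn_le_of (η := ε / (m + 1)) fun j hj x => ?_).trans (le_of_eq ?_)⟩
  · rw [iter_sub (hF n) hG, he]
    exact hN n hn j hj x
  · congr 1
    field_simp

variable {M e om : ℝ}

/-- A distance on the space of data. -/
def ed (d d' : Dset M e om) : ℝ≥0∞ := ⨆ m : ℕ, min (pm om m d.1 d'.1) (2⁻¹ ^ m)

theorem ed_self (d : Dset M e om) : ed d d = 0 := by simp [ed, pm_self]

theorem ed_comm (d d' : Dset M e om) : ed d d' = ed d' d := by simp only [ed, pm_comm om _ d.1]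

theorem ed_tri (d d' d'' : Dset M e om) : ed d d'' ≤ ed d d' + ed d' d'' := by
  refine iSup_le fun m => ?_
  have h1 : min (pm om m d.1 d'.1) (2⁻¹ ^ m) ≤ ed d d' :=
    le_iSup (fun m : ℕ => min (pm om m d.1 d'.1) (2⁻¹ ^ m)) m
  have h2 : min (pm om m d'.1 d''.1) (2⁻¹ ^ m) ≤ ed d' d'' :=
    le_iSup (fun m : ℕ => min (pm om m d'.1 d''.1) (2⁻¹ ^ m)) m
  refine le_trans ?_ (add_le_add h1 h2)
  have h3 := pm_tri om m d.2.smooth d'.2.smooth d''.2.smooth
  rcases le_total (pm om m d.1 d'.1) (2⁻¹ ^ m) with a | a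
  · rcases le_total (pm om m d'.1 d''.1) (2⁻¹ ^ m) with b | b
    · rw [min_eq_left a, min_eq_left b]
      exact (min_le_left _ _).trans h3
    · rw [min_eq_right b]
      exact (min_le_right _ _).trans le_add_self
  · rw [min_eq_right a]
    exact (min_le_right _ _).trans le_self_add

theorem pm_lt_of_ed {d d' : Dset M e om} {m : ℕ} {ε : ℝ≥0∞} (h : ed d d' < min ε (2⁻¹ ^ m)) :
    pm om m d.1 d'.1 < ε := by
  have h1 : min (pm om m d.1 d'.1) (2⁻¹ ^ m) < min ε (2⁻¹ ^ m) :=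
    (le_iSup (fun m : ℕ => min (pm om m d.1 d'.1) (2⁻¹ ^ m)) m).trans_lt h
  rcases min_lt_iff.1 h1 with a | a
  · exact a.trans_le (min_le_left _ _)
  · exact absurd (a.trans_le (min_le_right _ _)) (lt_irrefl _)

theorem ed_le (d d' : Dset M e om) (m : ℕ) : ed d d' ≤ max (pm om m d.1 d'.1) (2⁻¹ ^ m) := by
  refine iSup_le fun k => ?_
  rcases le_total k m with a | a
  · exact (min_le_left _ _).trans ((pm_mono om a _ _).trans (le_max_left _ _))
  · refine (min_le_right _ _).trans (le_trans ?_ (le_max_right _ _))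
    exact pow_le_pow_right_of_le_one' (ENNReal.inv_le_one.2 one_le_two) a

theorem pow_pos' (m : ℕ) : (0 : ℝ≥0∞) < 2⁻¹ ^ m :=
  ENNReal.pow_pos (ENNReal.inv_pos.2 ENNReal.ofNat_ne_top) m

theorem ed_basis (d : Dset M e om) :
    (𝓝 d).HasBasis (fun c => 0 < c) fun c => {d' | ed d d' < c} := by
  refine ⟨fun s => ⟨fun hs => ?_, fun ⟨c, hc, hs⟩ => ?_⟩⟩
  · obtain ⟨t, hts, ht, hd⟩ := mem_nhds_iff.1 hs
    obtain ⟨m, ε, hε, hb⟩ := isOpen_iff_ball.1 ht d hd
    refine ⟨min ε (2⁻¹ ^ m), lt_min hε (pow_pos' m), fun d' hd' => hts (hb ?_)⟩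
    show pm om m d'.1 d.1 < ε
    rw [pm_comm]
    exact pm_lt_of_ed hd'
  · obtain ⟨m, hm⟩ := ENNReal.exists_inv_two_pow_lt hc.ne'
    refine mem_of_superset ((isOpen_ball' d m c).mem_nhds (mem_ball_self' d m hc))
      fun d' hd' => hs ?_
    have h1 : pm om m d'.1 d.1 < c := hd'
    rw [pm_comm] at h1
    exact (ed_le d d' m).trans_lt (max_lt h1 hm)

theorem mom_eq {d : Dat} (hs : d.Sm) (hp : ∀ x, 0 < d.a x ∧ 0 < d.b x) (x : ℝ) :
    d.divK x - deriv d.trK x = deriv d.b x / d.b x * (d.k x / d.a x - d.l x / d.b x) -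
      2 * ((deriv d.l x * d.b x - d.l x * deriv d.b x) / d.b x ^ 2) := by
  obtain ⟨h1, h2, h3, h4, -, -⟩ := hs
  have d1 : DifferentiableAt ℝ (fun y => d.k y / d.a y) x :=
    (h3.differentiable (by simp) x).div (h1.differentiable (by simp) x) (hp x).1.ne'
  have d2 := ((h4.differentiable (by simp) x).hasDerivAt.div
    (h2.differentiable (by simp) x).hasDerivAt (hp x).2.ne').const_mul 2
  have d3 : deriv d.trK x = _ := (d1.hasDerivAt.add d2).deriv
  rw [Dat.divK, d3]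
  ring

theorem pos_of_pm {d : Dat} (hM : |e| < M) {η : ℝ} (hη : 0 ≤ η) (h1 : η < 1)
    (h2 : 2 * η ≤ M ^ 2) (h : pm om 1 d (rn M e) ≤ ENNReal.ofReal η) (x : ℝ) :
    0 < d.a x ∧ 0 < d.b x := by
  obtain ⟨ha, hb, -⟩ := pm_parts h
  have a1 := le_of_wn (Nat.zero_le 1) hη ha x
  have b1 := le_of_wn (Nat.zero_le 1) hη hb x
  simp only [CharP.cast_eq_zero, add_zero, Real.rpow_one, iteratedDeriv_zero, Pi.sub_apply, rn,
    Real.rpow_neg_one] at a1 b1
  have hM0 : 0 < M := (abs_nonneg e).trans_lt hM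
  have he : e ^ 2 < M ^ 2 := by
    rw [← sq_abs e]
    exact pow_lt_pow_left₀ hM (abs_nonneg e) two_ne_zero
  have hq : 0 < x ^ 2 + M ^ 2 - e ^ 2 := by nlinarith [sq_nonneg x]
  have hs := Real.sq_sqrt hq.le
  have hs0 := Real.sqrt_pos.2 hq
  set t := √(x ^ 2 + M ^ 2 - e ^ 2)
  have r1 := one_le_rho x
  have r2 := rho_le x
  set ρ := √(1 + x ^ 2)
  constructor
  · have k1 : 1 ≤ (M + t) ^ 2 / (x ^ 2 + M ^ 2 - e ^ 2) := by
      rw [le_div_iff₀ hq]
      nlinarith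
    have k2 := neg_abs_le (d.a x - (M + t) ^ 2 / (x ^ 2 + M ^ 2 - e ^ 2))
    have k3 := abs_nonneg (d.a x - (M + t) ^ 2 / (x ^ 2 + M ^ 2 - e ^ 2))
    nlinarith
  · rw [inv_mul_le_iff₀ (by linarith)] at b1
    have k2 := neg_abs_le (d.b x - (M + t) ^ 2)
    have k3 : ρ * η ≤ (1 + |x|) * η := mul_le_mul_of_nonneg_right r2 hη
    have k4 : 2 * |x| ≤ 1 + x ^ 2 := by nlinarith [sq_abs x, sq_nonneg (|x| - 1)]
    have k5 : |x| * η ≤ (1 + x ^ 2) / 2 * η := mul_le_mul_of_nonneg_right (by linarith) hη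
    have k6 : x ^ 2 * η ≤ x ^ 2 := by nlinarith [sq_nonneg x]
    nlinarith [mul_pos hM0 hs0, sq_nonneg x]

/-- Completeness of small closed balls. -/
theorem lim_data (hM : |e| < M) {d0 : Dset M e om} (h0 : d0.1 = rn M e) {η : ℝ} (hη : 0 < η)
    (h1 : η < 1 / 2) (h2 : 4 * η ≤ M ^ 2) {u : ℕ → Dset M e om}
    (hu : ∀ n, pm om 1 (u n).1 d0.1 ≤ ENNReal.ofReal η)
    (hC : ∀ (m : ℕ) (ε : ℝ), 0 < ε → ∃ N, ∀ n ≥ N, ∀ n' ≥ N,
      pm om m (u n).1 (u n').1 ≤ ENNReal.ofReal ε) :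
    ∃ d : Dset M e om, ∀ (m : ℕ) (ε : ℝ), 0 < ε → ∃ N, ∀ n ≥ N,
      pm om m (u n).1 d.1 ≤ ENNReal.ofReal ε := by
  obtain ⟨Ga, sa, ta, ca⟩ := lim_fun (s := 1) (fun n => (u n).2.smooth.1) fun m ε hε =>
    (hC m ε hε).imp fun N hN n hn n' hn' => (pm_parts (hN n hn n' hn')).1
  obtain ⟨Gb, sb, tb, cb⟩ := lim_fun (s := -1) (fun n => (u n).2.smooth.2.1) fun m ε hε =>
    (hC m ε hε).imp fun N hN n hn n' hn' => (pm_parts (hN n hn n' hn')).2.1
  obtain ⟨Gk, sk, tk, ck⟩ := lim_fun (s := 2) (fun n => (u n).2.smooth.2.2.1) fun m ε hε =>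
    (hC m ε hε).imp fun N hN n hn n' hn' => (pm_parts (hN n hn n' hn')).2.2.1
  obtain ⟨Gl, sl, tl, cl⟩ := lim_fun (s := 0) (fun n => (u n).2.smooth.2.2.2.1) fun m ε hε =>
    (hC m ε hε).imp fun N hN n hn n' hn' => (pm_parts (hN n hn n' hn')).2.2.2.1
  obtain ⟨Gf, sf, tf, cf⟩ := lim_fun (s := om) (fun n => (u n).2.smooth.2.2.2.2.1) fun m ε hε =>
    (hC m ε hε).imp fun N hN n hn n' hn' => (pm_parts (hN n hn n' hn')).2.2.2.2.1
  obtain ⟨Gg, sg, tg, cg⟩ := lim_fun (s := om + 1) (fun n => (u n).2.smooth.2.2.2.2.2)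
    fun m ε hε => (hC m ε hε).imp fun N hN n hn n' hn' => (pm_parts (hN n hn n' hn')).2.2.2.2.2.1
  obtain ⟨q, tq⟩ : ∃ q, Tendsto (fun n => (u n).1.e) atTop (𝓝 q) := by
    refine cauchySeq_tendsto_of_complete (Metric.cauchySeq_iff.2 fun ε hε => ?_)
    obtain ⟨N, hN⟩ := hC 0 (ε / 2) (by positivity)
    refine ⟨N, fun n hn n' hn' => ?_⟩
    have := (ENNReal.ofReal_le_ofReal_iff (by positivity)).1
      (pm_parts (hN n hn n' hn')).2.2.2.2.2.2
    rw [Real.dist_eq]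
    linarith
  let d : Dat := ⟨Ga, Gb, Gk, Gl, Gf, Gg, q⟩
  have hs : d.Sm := ⟨sa, sb, sk, sl, sf, sg⟩
  have conv : ∀ (m : ℕ) (ε : ℝ), 0 < ε → ∃ N, ∀ n ≥ N, pm om m (u n).1 d ≤ ENNReal.ofReal ε := by
    intro m ε hε
    have h7 : 0 < ε / 7 := by positivity
    obtain ⟨N1, k1⟩ := ca m _ h7
    obtain ⟨N2, k2⟩ := cb m _ h7
    obtain ⟨N3, k3⟩ := ck m _ h7
    obtain ⟨N4, k4⟩ := cl m _ h7
    obtain ⟨N5, k5⟩ := cf m _ h7
    obtain ⟨N6, k6⟩ := cg m _ h7
    obtain ⟨N7, k7⟩ := Metric.tendsto_atTop.1 tq _ h7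
    refine ⟨N1 + N2 + N3 + N4 + N5 + N6 + N7, fun n hn => ?_⟩
    have k8 : ENNReal.ofReal |(u n).1.e - q| ≤ ENNReal.ofReal (ε / 7) :=
      ENNReal.ofReal_le_ofReal (k7 n (by omega)).le
    calc pm om m (u n).1 d ≤ ENNReal.ofReal (ε / 7) + ENNReal.ofReal (ε / 7) +
          ENNReal.ofReal (ε / 7) + ENNReal.ofReal (ε / 7) + ENNReal.ofReal (ε / 7) +
          ENNReal.ofReal (ε / 7) + ENNReal.ofReal (ε / 7) :=
          add_le_add (add_le_add (add_le_add (add_le_add (add_le_add (add_le_add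
            (k1 n (by omega)) (k2 n (by omega))) (k3 n (by omega))) (k4 n (by omega)))
            (k5 n (by omega))) (k6 n (by omega))) k8
      _ = ENNReal.ofReal ε := by
          repeat rw [← ENNReal.ofReal_add (by positivity) (by positivity)]
          congr 1
          ring
  have tri : ∀ m n, pm om m d (rn M e) ≤ pm om m (u n).1 d + pm om m (u n).1 (rn M e) :=
    fun m n => by
      rw [pm_comm om m (u n).1 d]
      exact pm_tri om m hs (u n).2.smooth (h0 ▸ d0.2.smooth)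
  have hpos : ∀ x, 0 < d.a x ∧ 0 < d.b x := by
    obtain ⟨N, hN⟩ := conv 1 η hη
    refine pos_of_pm (om := om) hM (η := η + η) (by positivity) (by linarith) (by linarith) ?_
    rw [ENNReal.ofReal_add hη.le hη.le]
    exact (tri 1 N).trans (add_le_add (hN N le_rfl) (h0 ▸ hu N))
  have t0 : ∀ {F : ℕ → ℝ → ℝ} {G : ℝ → ℝ}, (∀ j x, Tendsto (fun n => iteratedDeriv j (F n) x)
      atTop (𝓝 (iteratedDeriv j G x))) → ∀ x, Tendsto (fun n => F n x) atTop (𝓝 (G x)) ∧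
      Tendsto (fun n => deriv (F n) x) atTop (𝓝 (deriv G x)) ∧
      Tendsto (fun n => deriv (deriv (F n)) x) atTop (𝓝 (deriv (deriv G) x)) := fun h x =>
    ⟨by simpa only [iteratedDeriv_zero] using h 0 x, by simpa only [iteratedDeriv_one] using h 1 x,
      by simpa only [iteratedDeriv_succ, iteratedDeriv_zero] using h 2 x⟩
  refine ⟨⟨d, hs, hpos, fun m => ?_, fun x => ?_, fun x => ?_⟩, conv⟩
  · obtain ⟨N, hN⟩ := conv m 1 one_pos
    exact (tri m N).trans_lt (ENNReal.add_lt_top.2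
      ⟨(hN N le_rfl).trans_lt ENNReal.ofReal_lt_top, (u N).2.finite m⟩)
  · obtain ⟨a0, a1, -⟩ := t0 ta x
    obtain ⟨b0, b1, b2⟩ := t0 tb x
    obtain ⟨k0, -, -⟩ := t0 tk x
    obtain ⟨l0, -, -⟩ := t0 tl x
    obtain ⟨-, f1, -⟩ := t0 tf x
    obtain ⟨g0, -, -⟩ := t0 tg x
    have pa : Ga x ≠ 0 := (hpos x).1.ne'
    have pb : Gb x ≠ 0 := (hpos x).2.ne'
    have ka := k0.div a0 pa
    have lb := l0.div b0 pb
    refine tendsto_nhds_unique (l := atTop)
      (f := fun n => (u n).1.scal x + (u n).1.trK x ^ 2 - (u n).1.sqK x) ?_ ?_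
    · exact (((((tendsto_const_nhds.div b0 pb).add ((b1.pow 2).div
        ((a0.const_mul 2).mul (b0.pow 2)) (by positivity))).sub
        ((b2.const_mul 2).div (a0.mul b0) (by positivity))).add
        ((a1.mul b1).div ((a0.pow 2).mul b0) (by positivity))).add
        ((ka.add (lb.const_mul 2)).pow 2)).sub ((ka.pow 2).add ((lb.pow 2).const_mul 2))
    · simp only [(u _).2.hamilton x]
      exact ((((g0.pow 2).const_mul 2).add (((f1.pow 2).const_mul 2).div a0 pa)).add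
        (((tq.pow 2).const_mul 2).div (b0.pow 2) (by positivity)))
  · obtain ⟨a0, -, -⟩ := t0 ta x
    obtain ⟨b0, b1, -⟩ := t0 tb x
    obtain ⟨k0, -, -⟩ := t0 tk x
    obtain ⟨l0, l1, -⟩ := t0 tl x
    obtain ⟨-, f1, -⟩ := t0 tf x
    obtain ⟨g0, -, -⟩ := t0 tg x
    have pa : Ga x ≠ 0 := (hpos x).1.ne'
    have pb : Gb x ≠ 0 := (hpos x).2.ne'
    rw [mom_eq hs hpos]
    refine tendsto_nhds_unique (l := atTop)
      (f := fun n => (u n).1.divK x - deriv (u n).1.trK x) ?_ ?_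
    · simp only [mom_eq (u _).2.smooth (u _).2.pos]
      exact ((b1.div b0 pb).mul ((k0.div a0 pa).sub (l0.div b0 pb))).sub
        ((((l1.mul b0).sub (l0.mul b1)).div (b0.pow 2) (by positivity)).const_mul 2)
    · simp only [(u _).2.momentum x]
      exact (g0.const_mul 2).mul f1

end Vale.Agent.P354W

namespace Vale.Agent.P354E

open Vale.Agent.P354W

theorem dBaire : DBaire := by
  intro M e om d0 hM h0
  have hM0 : 0 < M := (abs_nonneg e).trans_lt hM
  set η0 : ℝ := min (1 / 4) (M ^ 2 / 4) with hη0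
  have p0 : 0 < η0 := by positivity
  refine ⟨η0, p0, fun η hη => ?_⟩
  let _ : PseudoEMetricSpace (Dset M e om) :=
    PseudoEMetricSpace.ofEDistOfTopology ed ed_self ed_comm ed_tri ed_basis
  let C : Set (Dset M e om) := {d | pm om 1 d.1 d0.1 ≤ ENNReal.ofReal η0}
  have hC : CompleteSpace C := by
    refine EMetric.complete_of_cauchySeq_tendsto fun u hu => ?_
    obtain ⟨d, hd⟩ := lim_data hM h0 p0 ((min_le_left _ _).trans_lt (by norm_num))
      (by linarith [min_le_right (1 / 4) (M ^ 2 / 4)]) (u := fun n => (u n).1) (fun n => (u n).2)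
      (fun m ε hε => by
        obtain ⟨N, hN⟩ := EMetric.cauchySeq_iff.1 hu (min (ENNReal.ofReal ε) (2⁻¹ ^ m))
          (lt_min (ENNReal.ofReal_pos.2 hε) (pow_pos' m))
        exact ⟨N, fun n hn n' hn' => (pm_lt_of_ed (hN n hn n' hn')).le⟩)
    have hdC : d ∈ C := by
      refine ENNReal.le_of_forall_pos_le_add fun ε hε _ => ?_
      obtain ⟨N, hN⟩ := hd 1 ε hε
      have h1 := pm_tri om 1 d.2.smooth (u N).1.2.smooth d0.2.smooth
      rw [pm_comm om 1 d.1 (u N).1.1] at h1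
      refine h1.trans ?_
      rw [add_comm]
      exact add_le_add (u N).2 ((hN N le_rfl).trans (by simp))
    refine ⟨⟨d, hdC⟩, tendsto_subtype_rng.2 ((ed_basis d).tendsto_right_iff.2 fun c hc => ?_)⟩
    obtain ⟨m, hm⟩ := ENNReal.exists_inv_two_pow_lt hc.ne'
    obtain ⟨ε, hε, hεc⟩ := exists_real_lt hc
    obtain ⟨N, hN⟩ := hd m ε hε
    filter_upwards [eventually_ge_atTop N] with n hn
    refine (ed_le _ _ m).trans_lt (max_lt ?_ hm)
    rw [pm_comm]
    exact (hN n hn).trans_lt hεc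
  have hB : BaireSpace C := inferInstance
  have hsub : ball d0 1 (ENNReal.ofReal η) ⊆ C := fun d hd =>
    (le_of_lt hd).trans (ENNReal.ofReal_le_ofReal hη)
  exact (IsOpenEmbedding.inclusion hsub
    ((isOpen_ball' d0 1 _).preimage continuous_subtype_val)).baireSpace

end Vale.Agent.P354E
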