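import Mathlib

/-!
Characteristic triangles over the line `u + v = 0`, induction on them, and a Gronwall bound.
-/

open Set Filter Topology
open scoped ContDiff NNReal

noncomputable section

namespace Vale.Agent.P354W

/-- The characteristic triangle with vertex `p` and base on the line `u + v = 0`. -/
def Tri (p : ℝ × ℝ) : Set (ℝ × ℝ) :=
  {q | (0 ≤ q.1 + q.2 ∧ q.1 ≤ p.1 ∧ q.2 ≤ p.2) ∨ (q.1 + q.2 ≤ 0 ∧ p.1 ≤ q.1 ∧ p.2 ≤ q.2)}

theorem self_mem_tri (p : ℝ × ℝ) : p ∈ Tri p := by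
  rcases le_total 0 (p.1 + p.2) with h | h
  · exact Or.inl ⟨h, le_rfl, le_rfl⟩
  · exact Or.inr ⟨h, le_rfl, le_rfl⟩

theorem tri_subset {p q : ℝ × ℝ} (h : q ∈ Tri p) : Tri q ⊆ Tri p := by
  rintro r (⟨h1, h2, h3⟩ | ⟨h1, h2, h3⟩) <;> rcases h with ⟨k1, k2, k3⟩ | ⟨k1, k2, k3⟩
  · exact Or.inl ⟨h1, h2.trans k2, h3.trans k3⟩
  · exact Or.inr ⟨by linarith, by linarith, by linarith⟩
  · exact Or.inl ⟨by linarith, by linarith, by linarith⟩
  · exact Or.inr ⟨h1, k2.trans h2, k3.trans h3⟩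

theorem mem_tri_future {p q : ℝ × ℝ} (hp : 0 ≤ p.1 + p.2) :
    q ∈ Tri p ↔ 0 ≤ q.1 + q.2 ∧ q.1 ≤ p.1 ∧ q.2 ≤ p.2 := by
  refine ⟨?_, Or.inl⟩
  rintro (h | ⟨h1, h2, h3⟩)
  · exact h
  · exact ⟨by linarith, by linarith, by linarith⟩

theorem mem_tri_past {p q : ℝ × ℝ} (hp : p.1 + p.2 ≤ 0) :
    q ∈ Tri p ↔ q.1 + q.2 ≤ 0 ∧ p.1 ≤ q.1 ∧ p.2 ≤ q.2 := by
  refine ⟨?_, Or.inr⟩
  rintro (⟨h1, h2, h3⟩ | h)
  · exact ⟨by linarith, by linarith, by linarith⟩
  · exact h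

theorem mem_tri_v {p : ℝ × ℝ} {v : ℝ} (hv : v ∈ uIcc (-p.1) p.2) : (p.1, v) ∈ Tri p := by
  rcases mem_uIcc.1 hv with ⟨h1, h2⟩ | ⟨h1, h2⟩
  · exact Or.inl ⟨by simp only; linarith, le_rfl, h2⟩
  · exact Or.inr ⟨by simp only; linarith, le_rfl, h1⟩

theorem mem_tri_u {p : ℝ × ℝ} {u : ℝ} (hu : u ∈ uIcc (-p.2) p.1) : (u, p.2) ∈ Tri p := by
  rcases mem_uIcc.1 hu with ⟨h1, h2⟩ | ⟨h1, h2⟩
  · exact Or.inl ⟨by simp only; linarith, h2, le_rfl⟩
  · exact Or.inr ⟨by simp only; linarith, h1, le_rfl⟩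

theorem base_mem_tri {p : ℝ × ℝ} {x : ℝ} : (-x, x) ∈ Tri p ↔ x ∈ uIcc (-p.1) p.2 := by
  rw [mem_uIcc]
  constructor
  · rintro (⟨-, h2, h3⟩ | ⟨-, h2, h3⟩)
    · exact Or.inl ⟨by simp only at h2; linarith, h3⟩
    · exact Or.inr ⟨h3, by simp only at h2; linarith⟩
  · rintro (⟨h1, h2⟩ | ⟨h1, h2⟩)
    · exact Or.inl ⟨by simp, by simp only; linarith, h2⟩
    · exact Or.inr ⟨by simp, by simp only; linarith, h1⟩

theorem abs_le_of_mem_tri {p q : ℝ × ℝ} (h : q ∈ Tri p) : |q.1 + q.2| ≤ |p.1 + p.2| := by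
  rcases h with ⟨h1, h2, h3⟩ | ⟨h1, h2, h3⟩
  · rw [abs_of_nonneg h1, abs_of_nonneg (by linarith)]; linarith
  · rw [abs_of_nonpos h1, abs_of_nonpos (by linarith)]; linarith

theorem abs_lt_of_mem_tri {p q : ℝ × ℝ} (h : q ∈ Tri p) (hne : q ≠ p) :
    |q.1 + q.2| < |p.1 + p.2| := by
  by_contra hlt
  apply hne
  rw [not_lt] at hlt
  rcases h with ⟨h1, h2, h3⟩ | ⟨h1, h2, h3⟩
  · rw [abs_of_nonneg h1, abs_of_nonneg (by linarith)] at hlt
    exact Prod.ext (by linarith) (by linarith)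
  · rw [abs_of_nonpos h1, abs_of_nonpos (by linarith)] at hlt
    exact Prod.ext (by linarith) (by linarith)

theorem tri_base (x : ℝ) : Tri (-x, x) = {(-x, x)} := by
  ext q
  refine ⟨fun h => ?_, fun h => h ▸ self_mem_tri _⟩
  by_contra hne
  have := abs_lt_of_mem_tri h hne
  simp only [neg_add_cancel, abs_zero] at this
  exact absurd this (not_lt.2 (abs_nonneg _))

/-- The standard simplex in the plane. -/
def Simp : Set (ℝ × ℝ) := {s | 0 ≤ s.1 ∧ 0 ≤ s.2 ∧ s.1 + s.2 ≤ 1}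

theorem isCompact_simp : IsCompact Simp := by
  refine (isCompact_Icc (a := ((0 : ℝ), (0 : ℝ))) (b := (1, 1))).of_isClosed_subset ?_ ?_
  · exact (isClosed_le continuous_const continuous_fst).inter
      ((isClosed_le continuous_const continuous_snd).inter
        (isClosed_le (continuous_fst.add continuous_snd) continuous_const))
  · rintro s ⟨h1, h2, h3⟩
    exact ⟨⟨h1, h2⟩, ⟨by simp only; linarith, by simp only; linarith⟩⟩

theorem mem_tri_iff {p q : ℝ × ℝ} :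
    q ∈ Tri p ↔ ∃ s ∈ Simp, q = (p.1 - (p.1 + p.2) * s.1, p.2 - (p.1 + p.2) * s.2) := by
  constructor
  · intro h
    by_cases h0 : p.1 + p.2 = 0
    · refine ⟨(0, 0), ⟨le_rfl, le_rfl, by simp⟩, ?_⟩
      by_contra hne
      have := abs_lt_of_mem_tri h (by simpa using hne)
      rw [h0, abs_zero] at this
      exact absurd this (not_lt.2 (abs_nonneg _))
    · refine ⟨((p.1 - q.1) / (p.1 + p.2), (p.2 - q.2) / (p.1 + p.2)), ?_, ?_⟩
      · rcases lt_or_gt_of_ne h0 with hn | hn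
        · obtain ⟨h1, h2, h3⟩ := (mem_tri_past hn.le).1 h
          refine ⟨div_nonneg_of_nonpos (by linarith) hn.le,
            div_nonneg_of_nonpos (by linarith) hn.le, ?_⟩
          simp only
          rw [← add_div, div_le_one_of_neg hn]
          linarith
        · obtain ⟨h1, h2, h3⟩ := (mem_tri_future hn.le).1 h
          refine ⟨div_nonneg (by linarith) hn.le, div_nonneg (by linarith) hn.le, ?_⟩
          simp only
          rw [← add_div, div_le_one hn]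
          linarith
      · refine Prod.ext ?_ ?_ <;> simp only <;> field_simp <;> ring
  · rintro ⟨s, ⟨h1, h2, h3⟩, rfl⟩
    rcases le_total 0 (p.1 + p.2) with h | h
    · refine Or.inl ⟨?_, ?_, ?_⟩ <;> simp only <;> nlinarith
    · refine Or.inr ⟨?_, ?_, ?_⟩ <;> simp only <;> nlinarith

theorem isCompact_tri (p : ℝ × ℝ) : IsCompact (Tri p) := by
  have : Tri p = (fun s : ℝ × ℝ => (p.1 - (p.1 + p.2) * s.1, p.2 - (p.1 + p.2) * s.2)) '' Simp := by
    ext q
    rw [mem_tri_iff]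
    exact ⟨fun ⟨s, h, e⟩ => ⟨s, h, e.symm⟩, fun ⟨s, h, e⟩ => ⟨s, h, e.symm⟩⟩
  rw [this]
  exact isCompact_simp.image (by fun_prop)

theorem isOpen_tri_subset {O : Set (ℝ × ℝ)} (hO : IsOpen O) : IsOpen {p | Tri p ⊆ O} := by
  rw [isOpen_iff_mem_nhds]
  intro p hp
  have := isCompact_simp.eventually_forall_of_forall_eventually (x₀ := p)
    (P := fun (p s : ℝ × ℝ) => (p.1 - (p.1 + p.2) * s.1, p.2 - (p.1 + p.2) * s.2) ∈ O)
    (fun s hs => by
      have hc : Continuous fun z : (ℝ × ℝ) × (ℝ × ℝ) =>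
          (z.1.1 - (z.1.1 + z.1.2) * z.2.1, z.1.2 - (z.1.1 + z.1.2) * z.2.2) := by fun_prop
      exact hc.continuousAt.eventually (hO.mem_nhds (hp (mem_tri_iff.2 ⟨s, hs, rfl⟩))))
  filter_upwards [this] with p' hp' q hq
  obtain ⟨s, hs, rfl⟩ := mem_tri_iff.1 hq
  exact hp' s hs

/-- A vertex off the base line is a limit of other points of its triangle. -/
theorem mem_closure_tri {q : ℝ × ℝ} (h : q.1 + q.2 ≠ 0) : q ∈ closure (Tri q \ {q}) := by
  have hc : Continuous fun t : ℝ => (q.1 - (q.1 + q.2) * t, q.2) := by fun_prop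
  have ht : Tendsto (fun t : ℝ => (q.1 - (q.1 + q.2) * t, q.2)) (𝓝[>] 0) (𝓝 q) := by
    have := hc.tendsto 0
    simp only [mul_zero, sub_zero, Prod.mk.eta] at this
    exact this.mono_left nhdsWithin_le_nhds
  refine mem_closure_of_tendsto ht ?_
  filter_upwards [Ioo_mem_nhdsGT (zero_lt_one' ℝ)] with t ht
  refine ⟨mem_tri_iff.2 ⟨(t, 0), ⟨ht.1.le, le_rfl, by simpa using ht.2.le⟩, by simp⟩, ?_⟩
  intro he
  have := congrArg Prod.fst (mem_singleton_iff.1 he)
  simp only [sub_eq_self, mul_eq_zero] at this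
  rcases this with h1 | h1
  · exact h h1
  · exact ht.1.ne' h1

/-- First bad point induction on a compact past set. -/
theorem past_induction {S O : Set (ℝ × ℝ)} (hS : IsCompact S) (hpast : ∀ q ∈ S, Tri q ⊆ S)
    (hO : ∀ q ∈ S, q ∈ O → O ∈ 𝓝[S] q)
    (step : ∀ q ∈ S, (∀ r ∈ Tri q, r ≠ q → r ∈ O) → q ∈ O) : S ⊆ O := by
  by_contra hn
  have hne : (S \ O).Nonempty := by
    rw [not_subset] at hn
    obtain ⟨q, h1, h2⟩ := hn
    exact ⟨q, h1, h2⟩
  have hcl : IsCompact (S \ O) := by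
    refine hS.of_isClosed_subset ?_ sdiff_subset
    rw [isClosed_iff_clusterPt]
    intro q hq
    have hqS : q ∈ S := hS.isClosed.closure_subset
      (closure_mono sdiff_subset (mem_closure_iff_clusterPt.2 hq))
    refine ⟨hqS, fun hqO => ?_⟩
    have h1 := hO q hqS hqO
    have h2 : (𝓝[S \ O] q).NeBot := hq
    have h3 : O ∈ 𝓝[S \ O] q := nhdsWithin_mono _ sdiff_subset h1
    obtain ⟨r, hr1, hr2⟩ := h2.nonempty_of_mem (inter_mem h3 self_mem_nhdsWithin)
    exact hr2.2 hr1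
  obtain ⟨q, hq, hmin⟩ := hcl.exists_isMinOn hne
    (f := fun q : ℝ × ℝ => |q.1 + q.2|) (by fun_prop)
  refine hq.2 (step q hq.1 fun r hr hne => ?_)
  by_contra hrO
  exact absurd (abs_lt_of_mem_tri hr hne) (not_lt.2 (hmin ⟨hpast q hq.1 hr, hrO⟩))

/-- First bad point induction on a triangle. -/
theorem tri_induction {p : ℝ × ℝ} {O : Set (ℝ × ℝ)}
    (hO : ∀ q ∈ Tri p, q ∈ O → O ∈ 𝓝[Tri p] q)
    (step : ∀ q ∈ Tri p, (∀ r ∈ Tri q, r ≠ q → r ∈ O) → q ∈ O) : Tri p ⊆ O :=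
  past_induction (isCompact_tri p) (fun _ hq => tri_subset hq) hO step

/-- First bad point induction on an arbitrary past set. -/
theorem past_induction' {S O : Set (ℝ × ℝ)} (hpast : ∀ q ∈ S, Tri q ⊆ S)
    (hO : ∀ q ∈ S, q ∈ O → O ∈ 𝓝[S] q)
    (step : ∀ q ∈ S, (∀ r ∈ Tri q, r ≠ q → r ∈ O) → q ∈ O) : S ⊆ O := fun p hp =>
  tri_induction (p := p)
    (fun q hq hqO => nhdsWithin_mono _ (hpast p hp) (hO q (hpast p hp hq) hqO))
    (fun q hq => step q (hpast p hp hq)) (self_mem_tri p)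

/-- Bootstrap on a past set: a continuous quantity that is below `B` at the base, and is below `B`
at `q` whenever it is at most `B` on the triangle of `q`, is below `B` everywhere. -/
theorem past_bootstrap {S : Set (ℝ × ℝ)} (hpast : ∀ q ∈ S, Tri q ⊆ S) {f : ℝ × ℝ → ℝ}
    (hf : ContinuousOn f S) {B : ℝ} (base : ∀ x, (-x, x) ∈ S → f (-x, x) < B)
    (step : ∀ q ∈ S, (∀ r ∈ Tri q, f r ≤ B) → f q < B) : ∀ q ∈ S, f q < B := by
  refine past_induction' (O := {q | f q < B}) hpast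
    (fun q hq hqO => (hf q hq).eventually (gt_mem_nhds hqO)) fun q hq h => ?_
  by_cases h0 : q.1 + q.2 = 0
  · have : q = (-q.2, q.2) := Prod.ext (by simp only; linarith) rfl
    rw [mem_ofPred_eq, this]
    exact base _ (this ▸ hq)
  · refine step q hq fun r hr => ?_
    by_cases hrq : r = q
    · subst hrq
      have hc : ContinuousWithinAt f (Tri r \ {r}) r :=
        (hf r hq).mono (sdiff_subset.trans (hpast r hq))
      exact hc.closure_le (mem_closure_tri h0) continuousWithinAt_const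
        fun y hy => (h y hy.1 hy.2).le
    · exact (h r hr hrq).le

/-- A closed condition holding on the punctured triangle holds at the vertex. -/
theorem mem_of_punctured {Y : Type*} [TopologicalSpace Y] {f : ℝ × ℝ → Y} {q : ℝ × ℝ}
    (h0 : q.1 + q.2 ≠ 0) (hf : ContinuousWithinAt f (Tri q) q) {C : Set Y} (hC : IsClosed C)
    (h : ∀ r ∈ Tri q, r ≠ q → f r ∈ C) : f q ∈ C :=
  hC.closure_subset ((hf.mono sdiff_subset).mem_closure (mem_closure_tri h0)
    fun y hy => h y hy.1 hy.2)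

theorem norm_sub_le_cosh_aux {X : Type*} [NormedAddCommGroup X] [NormedSpace ℝ X]
    {g g' : ℝ → X} {α β C l : ℝ} (hl : 0 < l) (hC : 0 ≤ C) (hab : α ≤ β)
    (hg : ∀ t ∈ Icc α β, HasDerivAt g (g' t) t)
    (h : ∀ t ∈ Icc α β, ‖g' t‖ ≤ C * Real.cosh (l * (t - α))) :
    ‖g β - g α‖ ≤ C * Real.cosh (l * (β - α)) / l := by
  have key := image_norm_le_of_norm_deriv_right_le_deriv_boundary (f := fun t => g t - g α)
    (f' := g') (a := α) (b := β)
    (fun t ht => ((hg t ht).continuousAt.sub continuousAt_const).continuousWithinAt)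
    (fun t ht => ((hg t (Ico_subset_Icc_self ht)).sub_const _).hasDerivWithinAt)
    (B := fun t => C * Real.sinh (l * (t - α)) / l) (B' := fun t => C * Real.cosh (l * (t - α)))
    (by simp)
    (fun t => by
      have : HasDerivAt (fun t => l * (t - α)) l t := by
        simpa using ((hasDerivAt_id t).sub_const α).const_mul l
      have h3 := (this.sinh.const_mul C).div_const l
      rwa [mul_div_assoc, mul_div_cancel_right₀ _ hl.ne'] at h3)
    (fun t ht => h t (Ico_subset_Icc_self ht)) (right_mem_Icc.2 hab)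
  refine key.trans ?_
  gcongr
  exact (Real.sinh_lt_cosh _).le

theorem norm_sub_le_cosh {X : Type*} [NormedAddCommGroup X] [NormedSpace ℝ X]
    {g g' : ℝ → X} {α β C l : ℝ} (hl : 0 < l) (hC : 0 ≤ C)
    (hg : ∀ t ∈ uIcc α β, HasDerivAt g (g' t) t)
    (h : ∀ t ∈ uIcc α β, ‖g' t‖ ≤ C * Real.cosh (l * (t - α))) :
    ‖g β - g α‖ ≤ C * Real.cosh (l * (β - α)) / l := by
  rcases le_total α β with hab | hab
  · rw [uIcc_of_le hab] at hg h
    exact norm_sub_le_cosh_aux hl hC hab hg h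
  · rw [uIcc_of_ge hab] at hg h
    have := norm_sub_le_cosh_aux (g := fun t => g (-t)) (g' := fun t => -g' (-t)) (α := -α)
      (β := -β) hl hC (neg_le_neg hab)
      (fun t ht => by
        have h1 := hg (-t) ⟨by linarith [ht.2], by linarith [ht.1]⟩
        simpa [Function.comp_def] using h1.scomp t (hasDerivAt_neg t))
      (fun t ht => by
        rw [norm_neg, ← Real.cosh_neg]
        convert h (-t) ⟨by linarith [ht.2], by linarith [ht.1]⟩ using 3
        ring)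
    simp only [neg_neg] at this
    rw [← Real.cosh_neg]
    convert this using 4
    ring

section Gronwall

variable {E F : Type*} [NormedAddCommGroup E] [NormedSpace ℝ E] [NormedAddCommGroup F]
  [NormedSpace ℝ F]

/-- Gronwall bound on a characteristic triangle. -/
theorem gronwall_tri {d : ℝ × ℝ → E × F} {f' : ℝ × ℝ → E} {g' : ℝ × ℝ → F} {p : ℝ × ℝ}
    {L M ε : ℝ} (hL : 0 ≤ L) (hM : 0 ≤ M) (hd : ContinuousOn d (Tri p))
    (hf : ∀ q ∈ Tri p, HasDerivAt (fun v => (d (q.1, v)).1) (f' q) q.2)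
    (hg : ∀ q ∈ Tri p, HasDerivAt (fun u => (d (u, q.2)).2) (g' q) q.1)
    (bf : ∀ q ∈ Tri p, ‖f' q‖ ≤ L * ‖d q‖ + M) (bg : ∀ q ∈ Tri p, ‖g' q‖ ≤ L * ‖d q‖ + M)
    (base : ∀ x, (-x, x) ∈ Tri p → ‖d (-x, x)‖ ≤ ε) :
    ∀ q ∈ Tri p, ‖d q‖ ≤ 2 * (ε + M) * Real.cosh ((2 * L + 1) * (q.1 + q.2)) := by
  set l := 2 * L + 1 with hl
  have hl0 : 0 < l := by positivity
  have hc : ContinuousOn (fun q : ℝ × ℝ => ‖d q‖ / Real.cosh (l * (q.1 + q.2))) (Tri p) :=
    hd.norm.div (by fun_prop) fun q _ => (Real.cosh_pos _).ne'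
  obtain ⟨q₀, hq₀, hmax⟩ := (isCompact_tri p).exists_isMaxOn ⟨p, self_mem_tri p⟩ hc
  set D := ‖d q₀‖ / Real.cosh (l * (q₀.1 + q₀.2)) with hD
  have hD0 : 0 ≤ D := div_nonneg (norm_nonneg _) (Real.cosh_pos _).le
  have hb : ∀ q ∈ Tri p, ‖d q‖ ≤ D * Real.cosh (l * (q.1 + q.2)) := fun q hq =>
    (div_le_iff₀ (Real.cosh_pos _)).1 (hmax hq)
  have hb' : ∀ q ∈ Tri p, L * ‖d q‖ + M ≤ (L * D + M) * Real.cosh (l * (q.1 + q.2)) :=
    fun q hq => by
      have h1 := mul_le_mul_of_nonneg_left (hb q hq) hL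
      have h2 := mul_le_mul_of_nonneg_left (Real.one_le_cosh (l * (q.1 + q.2))) hM
      nlinarith
  have hC : 0 ≤ L * D + M := by positivity
  have e1 := norm_sub_le_cosh (g := fun v => (d (q₀.1, v)).1) (g' := fun v => f' (q₀.1, v))
    (α := -q₀.1) (β := q₀.2) hl0 hC
    (fun t ht => hf (q₀.1, t) (tri_subset hq₀ (mem_tri_v ht)))
    (fun t ht => by
      have h1 := (bf _ (tri_subset hq₀ (mem_tri_v ht))).trans
        (hb' _ (tri_subset hq₀ (mem_tri_v ht)))
      rwa [sub_neg_eq_add, add_comm t])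
  have e2 := norm_sub_le_cosh (g := fun u => (d (u, q₀.2)).2) (g' := fun u => g' (u, q₀.2))
    (α := -q₀.2) (β := q₀.1) hl0 hC
    (fun t ht => hg (t, q₀.2) (tri_subset hq₀ (mem_tri_u ht)))
    (fun t ht => by
      have h1 := (bg _ (tri_subset hq₀ (mem_tri_u ht))).trans
        (hb' _ (tri_subset hq₀ (mem_tri_u ht)))
      rwa [sub_neg_eq_add])
  rw [sub_neg_eq_add, add_comm q₀.2] at e1
  rw [sub_neg_eq_add] at e2
  have b1 : ‖d (q₀.1, -q₀.1)‖ ≤ ε := by
    have := base (-q₀.1) (by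
      rw [neg_neg]; exact tri_subset hq₀ (mem_tri_v left_mem_uIcc))
    rwa [neg_neg] at this
  have b2 : ‖d (-q₀.2, q₀.2)‖ ≤ ε := base _ (tri_subset hq₀ (mem_tri_u left_mem_uIcc))
  have hε : 0 ≤ ε := (norm_nonneg _).trans b2
  set c := Real.cosh (l * (q₀.1 + q₀.2)) with hcdef
  have hc1 : 1 ≤ c := Real.one_le_cosh _
  have hn : ‖d q₀‖ ≤ ε + (L * D + M) * c / l := by
    rw [Prod.norm_def]
    refine max_le ?_ ?_
    · have := norm_le_insert' (d (q₀.1, q₀.2)).1 (d (q₀.1, -q₀.1)).1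
      linarith [norm_fst_le (d (q₀.1, -q₀.1))]
    · have := norm_le_insert' (d (q₀.1, q₀.2)).2 (d (-q₀.2, q₀.2)).2
      linarith [norm_snd_le (d (-q₀.2, q₀.2))]
  have hDc : ‖d q₀‖ = D * c := by rw [hD]; field_simp
  have hDle : D ≤ 2 * (ε + M) := by
    have h1 : (L * D + M) * c / l ≤ (D / 2 + M) * c := by
      rw [div_le_iff₀ hl0, hl]
      have : 0 ≤ D * c := by positivity
      have : 0 ≤ M * c := by positivity
      have : 0 ≤ L * (M * c) := by positivity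
      nlinarith
    have h2 : ε ≤ ε * c := by nlinarith
    have h3 : D * c ≤ (2 * (ε + M)) * c := by nlinarith
    exact le_of_mul_le_mul_right h3 (by linarith)
  intro q hq
  exact (hb q hq).trans (mul_le_mul_of_nonneg_right hDle (Real.cosh_pos _).le)

end Gronwall

end Vale.Agent.P354W
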