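import Vale.Agent.P354E.Omega
import Vale.Agent.P354W.Basic

/-!
A priori bounds: if `r` is bounded below and `w` above on a triangle, all fields are bounded.
-/

open Set Filter Topology
open scoped ContDiff

noncomputable section

namespace Vale.Agent.P354W

open Vale.Agent.P354E (P2 Du Dv Fld G1 G2 G3 IsSol IsDom)

/-- `f` is bounded on the part of the triangle of `p` inside `D`. -/
def Bd (D : Set P2) (p : P2) (f : P2 → ℝ) : Prop :=
  ∃ B, 0 ≤ B ∧ ∀ q ∈ D ∩ P354E.Tri p, |f q| ≤ B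

variable {D : Set P2} {p : P2} {f g : P2 → ℝ}

theorem Bd.const (c : ℝ) : Bd D p fun _ => c := ⟨|c|, abs_nonneg c, fun _ _ => le_rfl⟩

theorem Bd.add (hf : Bd D p f) (hg : Bd D p g) : Bd D p fun q => f q + g q := by
  obtain ⟨A, hA, h1⟩ := hf
  obtain ⟨B, hB, h2⟩ := hg
  exact ⟨A + B, by positivity, fun q hq => (abs_add_le _ _).trans (add_le_add (h1 q hq) (h2 q hq))⟩

theorem Bd.mul (hf : Bd D p f) (hg : Bd D p g) : Bd D p fun q => f q * g q := by
  obtain ⟨A, hA, h1⟩ := hf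
  obtain ⟨B, hB, h2⟩ := hg
  refine ⟨A * B, by positivity, fun q hq => ?_⟩
  rw [abs_mul]
  exact mul_le_mul (h1 q hq) (h2 q hq) (abs_nonneg _) hA

theorem Bd.congr (hf : Bd D p f) (e : ∀ q ∈ D, g q = f q) : Bd D p g := by
  obtain ⟨A, hA, h1⟩ := hf
  exact ⟨A, hA, fun q hq => by rw [e q hq.1]; exact h1 q hq⟩

theorem Bd.inv {c : ℝ} (hc : 0 < c) (h : ∀ q ∈ D ∩ P354E.Tri p, c ≤ f q) :
    Bd D p fun q => (f q)⁻¹ := by
  refine ⟨c⁻¹, by positivity, fun q hq => ?_⟩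
  have := h q hq
  rw [abs_of_pos (inv_pos.2 (by linarith))]
  exact inv_anti₀ hc this

theorem Bd.exp {C : ℝ} (h : ∀ q ∈ D ∩ P354E.Tri p, f q ≤ C) :
    Bd D p fun q => Real.exp (f q) :=
  ⟨Real.exp C, (Real.exp_pos _).le, fun q hq => by
    rw [abs_of_pos (Real.exp_pos _)]
    exact Real.exp_le_exp.2 (h q hq)⟩

theorem abs_sub_le_seg {F F' : ℝ → ℝ} {a b M : ℝ} (hab : a ≤ b)
    (hd : ∀ s ∈ Icc a b, HasDerivAt F (F' s) s) (hM : ∀ s ∈ Icc a b, |F' s| ≤ M) :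
    |F b - F a| ≤ M * (b - a) := by
  have := (convex_Icc a b).norm_image_sub_le_of_norm_hasDerivWithin_le
    (fun s hs => (hd s hs).hasDerivWithinAt) hM (left_mem_Icc.2 hab) (right_mem_Icc.2 hab)
  rwa [Real.norm_eq_abs, Real.norm_eq_abs, abs_of_nonneg (sub_nonneg.2 hab)] at this

theorem Bd.of_u (hD : IsDom D) (hf : ContinuousOn f D) (hd : ∀ q ∈ D, Du f q (g q))
    (hg : Bd D p g) : Bd D p f := by
  obtain ⟨M, hM, h1⟩ := hg
  obtain ⟨B, hB, h2⟩ := P354E.bdd_diag hD hf (-p.1) p.2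
  refine ⟨B + M * |p.1 + p.2|, by positivity, fun q hq => ?_⟩
  obtain ⟨hqD, k1, k2, k3⟩ := hq
  have hs : ∀ s ∈ Icc (-q.2) q.1, (s, q.2) ∈ D ∩ P354E.Tri p := fun s hs =>
    ⟨hD.tri q hqD (P354E.seg_u_Tri hs), hs.2.trans k1, k2, by linarith [hs.1]⟩
  have h3 := abs_sub_le_seg (F := fun s => f (s, q.2)) (F' := fun s => g (s, q.2))
    (by linarith : -q.2 ≤ q.1) (fun s h => hd _ (hs s h).1) fun s h => h1 _ (hs s h)
  have h4 := h2 q.2 ⟨by linarith, k2⟩
  have h5 : M * (q.1 - -q.2) ≤ M * |p.1 + p.2| :=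
    mul_le_mul_of_nonneg_left ((by linarith : q.1 - -q.2 ≤ p.1 + p.2).trans (le_abs_self _)) hM
  have h6 := abs_add_le (f (q.1, q.2) - f (-q.2, q.2)) (f (-q.2, q.2))
  rw [sub_add_cancel] at h6
  linarith

theorem Bd.of_v (hD : IsDom D) (hf : ContinuousOn f D) (hd : ∀ q ∈ D, Dv f q (g q))
    (hg : Bd D p g) : Bd D p f := by
  obtain ⟨M, hM, h1⟩ := hg
  obtain ⟨B, hB, h2⟩ := P354E.bdd_diag hD hf (-p.1) p.2
  refine ⟨B + M * |p.1 + p.2|, by positivity, fun q hq => ?_⟩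
  obtain ⟨hqD, k1, k2, k3⟩ := hq
  have hs : ∀ s ∈ Icc (-q.1) q.2, (q.1, s) ∈ D ∩ P354E.Tri p := fun s hs =>
    ⟨hD.tri q hqD (P354E.seg_v_Tri hs), k1, hs.2.trans k2, by linarith [hs.1]⟩
  have h3 := abs_sub_le_seg (F := fun s => f (q.1, s)) (F' := fun s => g (q.1, s))
    (by linarith : -q.1 ≤ q.2) (fun s h => hd _ (hs s h).1) fun s h => h1 _ (hs s h)
  have h4 := h2 (-q.1) ⟨by linarith, by linarith⟩
  rw [neg_neg] at h4
  have h5 : M * (q.2 - -q.1) ≤ M * |p.1 + p.2| :=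
    mul_le_mul_of_nonneg_left ((by linarith : q.2 - -q.1 ≤ p.1 + p.2).trans (le_abs_self _)) hM
  have h6 := abs_add_le (f (q.1, q.2) - f (q.1, -q.1)) (f (q.1, -q.1))
  rw [sub_add_cancel] at h6
  linarith

theorem tri_eq {q : P2} (h : 0 ≤ q.1 + q.2) : Tri q = P354E.Tri q := by
  ext s
  rw [mem_tri_future h]
  exact ⟨fun h => ⟨h.2.1, h.2.2, h.1⟩, fun h => ⟨h.2.2, h.1, h.2.1⟩⟩

/-- A linear diagonal system with bounded coefficients has bounded solutions. -/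
theorem Bd.of_lin (hD : IsDom D) {a b : P2 → ℝ} (hf : ContinuousOn f D) (hg : ContinuousOn g D)
    (df : ∀ q ∈ D, Dv f q (a q * g q)) (dg : ∀ q ∈ D, Du g q (b q * f q))
    (ha : Bd D p a) (hb : Bd D p b) : Bd D p f ∧ Bd D p g := by
  obtain ⟨A, hA, h1⟩ := ha
  obtain ⟨B, hB, h2⟩ := hb
  obtain ⟨B1, hB1, h3⟩ := P354E.bdd_diag hD hf (-p.1) p.2
  obtain ⟨B2, hB2, h4⟩ := P354E.bdd_diag hD hg (-p.1) p.2
  have key : ∀ q ∈ D ∩ P354E.Tri p, ‖(f q, g q)‖ ≤
      2 * (B1 + B2 + 0) * Real.cosh ((2 * (A + B) + 1) * |p.1 + p.2|) := by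
    intro q hq
    have ht := tri_eq hq.2.2.2
    have hs : ∀ s ∈ Tri q, s ∈ D ∩ P354E.Tri p := fun s hs =>
      ⟨hD.tri q hq.1 (ht ▸ hs), P354E.Tri_sub hq.2 (ht ▸ hs)⟩
    have := gronwall_tri (d := fun q => (f q, g q)) (f' := fun q => a q * g q)
      (g' := fun q => b q * f q) (p := q) (L := A + B) (M := 0) (ε := B1 + B2) (by positivity)
      le_rfl ((hf.prodMk hg).mono fun s h => (hs s h).1) (fun s h => df s (hs s h).1)
      (fun s h => dg s (hs s h).1)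
      (fun s h => by
        rw [add_zero, norm_mul]
        exact mul_le_mul ((h1 s (hs s h)).trans (by linarith)) (norm_snd_le (f s, g s))
          (norm_nonneg _) (by positivity))
      (fun s h => by
        rw [add_zero, norm_mul]
        exact mul_le_mul ((h2 s (hs s h)).trans (by linarith)) (norm_fst_le (f s, g s))
          (norm_nonneg _) (by positivity))
      (fun x hx => by
        have k := (hs _ hx).2
        have hx' : x ∈ Icc (-p.1) p.2 := ⟨by linarith [k.1], k.2.1⟩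
        rw [Prod.norm_mk]
        exact max_le ((h3 x hx').trans (by linarith)) ((h4 x hx').trans (by linarith)))
      q (self_mem_tri q)
    refine this.trans (mul_le_mul_of_nonneg_left ?_ (by positivity))
    rw [Real.cosh_le_cosh, abs_mul, abs_mul, abs_abs, abs_of_nonneg hq.2.2.2]
    refine mul_le_mul_of_nonneg_left (le_trans ?_ (le_abs_self _)) (abs_nonneg _)
    linarith [hq.2.1, hq.2.2.1]
  have h0 : 0 ≤ 2 * (B1 + B2 + 0) * Real.cosh ((2 * (A + B) + 1) * |p.1 + p.2|) := by positivity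
  exact ⟨⟨_, h0, fun q hq => (norm_fst_le (f q, g q)).trans (key q hq)⟩,
    ⟨_, h0, fun q hq => (norm_snd_le (f q, g q)).trans (key q hq)⟩⟩

/-- The a priori bound. -/
theorem apriori {e : ℝ} {S : Fld} (h : IsSol e S D) (hD : IsDom D) {c C : ℝ} (hc : 0 < c)
    (hb : ∀ q ∈ D ∩ P354E.Tri p, c ≤ S.r q ∧ S.w q ≤ C) :
    Bd D p S.r ∧ Bd D p S.w ∧ Bd D p S.p ∧ Bd D p S.l ∧ Bd D p S.n ∧ Bd D p S.wu ∧
      Bd D p S.wv ∧ Bd D p S.pu ∧ Bd D p S.pv := by
  have hi : Bd D p fun q => (S.r q)⁻¹ := Bd.inv hc fun q hq => (hb q hq).1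
  have hO : Bd D p S.O := Bd.exp fun q hq => (hb q hq).2
  have hH : Bd D p fun q => -(S.O q / 4) * (1 - e ^ 2 / S.r q ^ 2) :=
    ((hO.mul (Bd.const (-1 / 4))).mul ((Bd.const 1).add ((Bd.const (-e ^ 2)).mul (hi.mul hi)))).congr
      fun q _ => by ring
  have hrl := Bd.of_u hD (h.cont.r.mul h.cont.l) (fun q hq => (h.sol q hq).rl_u) hH
  have hrn := Bd.of_v hD (h.cont.r.mul h.cont.n) (fun q hq => (h.sol q hq).rn_v) hH
  have hl : Bd D p S.l := (hrl.mul hi).congr fun q hq => by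
    have := h.ne q hq
    simp only [Pi.mul_apply]
    field_simp
  have hn : Bd D p S.n := (hrn.mul hi).congr fun q hq => by
    have := h.ne q hq
    simp only [Pi.mul_apply]
    field_simp
  have hr := Bd.of_u hD h.cont.r (fun q hq => (h.sol q hq).r_u) hn
  obtain ⟨hze, hth⟩ := Bd.of_lin (p := p) hD (f := fun q => S.r q * S.pu q)
    (g := fun q => S.r q * S.pv q) (a := fun q => -1 * (S.n q * (S.r q)⁻¹))
    (b := fun q => -1 * (S.l q * (S.r q)⁻¹)) (h.cont.r.mul h.cont.pu) (h.cont.r.mul h.cont.pv)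
    (fun q hq => (h.sol q hq).ze_v.congr_d (by
      have := h.ne q hq
      field_simp))
    (fun q hq => (h.sol q hq).th_u.congr_d (by
      have := h.ne q hq
      field_simp))
    ((Bd.const (-1)).mul (hn.mul hi)) ((Bd.const (-1)).mul (hl.mul hi))
  have hpu : Bd D p S.pu := (hze.mul hi).congr fun q hq => by
    have := h.ne q hq
    field_simp
  have hpv : Bd D p S.pv := (hth.mul hi).congr fun q hq => by
    have := h.ne q hq
    field_simp
  have h3 : Bd D p (G3 e S) :=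
    ((((((Bd.const (-2)).mul hpu).mul hpv).add
      (((Bd.const (-e ^ 2)).mul hO).mul ((hi.mul hi).mul (hi.mul hi)))).add
      (((Bd.const (1 / 2)).mul hO).mul (hi.mul hi))).add
      ((((Bd.const 2).mul hl).mul hn).mul (hi.mul hi))).congr fun q _ => by
        unfold G3
        ring
  have hwu := Bd.of_v hD h.cont.wu (fun q hq => (h.sol q hq).wu_v) h3
  have hwv := Bd.of_u hD h.cont.wv (fun q hq => (h.sol q hq).wv_u) h3
  exact ⟨hr, Bd.of_u hD h.cont.w (fun q hq => (h.sol q hq).w_u) hwu,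
    Bd.of_u hD h.cont.p (fun q hq => (h.sol q hq).p_u) hpu, hl, hn, hwu, hwv, hpu, hpv⟩

end Vale.Agent.P354W
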