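import Vale.Agent.P354E.Calc

/-!
Propagation of the constraints: a smooth solution of the evolution part of the reduced system
whose data satisfy the constraints solves the whole reduced system.
-/

open Set Filter Topology
open scoped ContDiff

noncomputable section

namespace Vale.Agent.P354W

open Vale.Agent.P354E (P2 Du Dv Fld G1 G2 G3 Smooth IsRDat)

/-- `D` contains the two characteristic segments from each of its points to the initial line. -/
structure Seg (D : Set P2) : Prop where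
  isOpen : IsOpen D
  u : ∀ q ∈ D, ∀ s ∈ uIcc (-q.2) q.1, (s, q.2) ∈ D
  v : ∀ q ∈ D, ∀ s ∈ uIcc (-q.1) q.2, (q.1, s) ∈ D

theorem eq_of_deriv_zero_u {F : ℝ → ℝ} {a b : ℝ} (hd : ∀ s ∈ uIcc a b, HasDerivAt F 0 s) :
    F b = F a := by
  rcases le_total a b with h | h
  · rw [uIcc_of_le h] at hd
    exact P354E.eq_of_deriv_zero h hd
  · rw [uIcc_of_ge h] at hd
    exact (P354E.eq_of_deriv_zero h hd).symm

variable {D : Set P2} {a b c g : P2 → ℝ} {q : P2}

theorem Seg.const_u (hD : Seg D) (h : ∀ q ∈ D, Du a q 0) (hq : q ∈ D) : a q = a (-q.2, q.2) :=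
  eq_of_deriv_zero_u (F := fun s => a (s, q.2)) fun s hs => h _ (hD.u q hq s hs)

theorem Seg.const_v (hD : Seg D) (h : ∀ q ∈ D, Dv a q 0) (hq : q ∈ D) : a q = a (q.1, -q.1) :=
  eq_of_deriv_zero_u (F := fun s => a (q.1, s)) fun s hs => h _ (hD.v q hq s hs)

/-- The derivative in `u`. -/
def du (a : P2 → ℝ) (q : P2) : ℝ := fderiv ℝ a q (1, 0)

/-- The derivative in `v`. -/
def dv (a : P2 → ℝ) (q : P2) : ℝ := fderiv ℝ a q (0, 1)

theorem hasDerivAt_lu (q : P2) : HasDerivAt (fun s : ℝ => ((s, q.2) : P2)) (1, 0) q.1 :=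
  (hasDerivAt_id q.1).prodMk (hasDerivAt_const q.1 q.2)

theorem hasDerivAt_lv (q : P2) : HasDerivAt (fun s : ℝ => ((q.1, s) : P2)) (0, 1) q.2 :=
  (hasDerivAt_const q.2 q.1).prodMk (hasDerivAt_id q.2)

theorem du_spec (h : DifferentiableAt ℝ a q) : Du a q (du a q) :=
  HasFDerivAt.comp_hasDerivAt (l := a) q.1 h.hasFDerivAt (hasDerivAt_lu q)

theorem dv_spec (h : DifferentiableAt ℝ a q) : Dv a q (dv a q) :=
  HasFDerivAt.comp_hasDerivAt (l := a) q.2 h.hasFDerivAt (hasDerivAt_lv q)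

theorem diag_spec {x : ℝ} (h : DifferentiableAt ℝ a (-x, x)) :
    HasDerivAt (fun x : ℝ => a (-x, x)) (dv a (-x, x) - du a (-x, x)) x := by
  have h1 : HasDerivAt (fun x : ℝ => ((-x, x) : P2)) (-1, 1) x :=
    (hasDerivAt_neg x).prodMk (hasDerivAt_id x)
  have h2 := HasFDerivAt.comp_hasDerivAt (l := a) (f := fun x : ℝ => ((-x, x) : P2)) x
    h.hasFDerivAt h1
  have e : fderiv ℝ a (-x, x) (-1, 1) = dv a (-x, x) - du a (-x, x) := by
    rw [dv, du, ← map_sub]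
    congr 1
    simp
  rw [e] at h2
  exact h2

theorem diffAt (hD : IsOpen D) (ha : ContDiffOn ℝ ∞ a D) (hq : q ∈ D) : DifferentiableAt ℝ a q :=
  (ha.contDiffAt (hD.mem_nhds hq)).differentiableAt (by simp)

theorem mixed (hD : IsOpen D) (ha : ContDiffOn ℝ ∞ a D) (hq : q ∈ D) :
    ∃ m, Du (dv a) q m ∧ Dv (du a) q m := by
  have h := ha.contDiffAt (hD.mem_nhds hq)
  have h1 : DifferentiableAt ℝ (fderiv ℝ a) q :=
    (h.fderiv_right (m := 1) (WithTop.coe_le_coe.2 (le_top : (2 : ℕ∞) ≤ ⊤))).differentiableAt (by simp)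
  have hs := h.isSymmSndFDerivAt (by
    rw [minSmoothness_of_isRCLikeNormedField]
    exact WithTop.coe_le_coe.2 (le_top : (2 : ℕ∞) ≤ ⊤))
  have k : ∀ w : P2, HasFDerivAt (fun q => fderiv ℝ a q w)
      ((ContinuousLinearMap.apply ℝ ℝ w).comp (fderiv ℝ (fderiv ℝ a) q)) q := fun w =>
    (ContinuousLinearMap.apply ℝ ℝ w).hasFDerivAt.comp q h1.hasFDerivAt
  refine ⟨fderiv ℝ (fderiv ℝ a) q (1, 0) (0, 1), ?_, ?_⟩
  · have := HasFDerivAt.comp_hasDerivAt (l := fun q => fderiv ℝ a q (0, 1)) q.1 (k (0, 1))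
      (hasDerivAt_lu q)
    exact this
  · rw [hs.eq]
    have := HasFDerivAt.comp_hasDerivAt (l := fun q => fderiv ℝ a q (1, 0)) q.2 (k (1, 0))
      (hasDerivAt_lv q)
    exact this

theorem Du_congr (hD : IsOpen D) (hq : q ∈ D) (e : ∀ q ∈ D, a q = b q) {d : ℝ} (h : Du a q d) :
    Du b q d := by
  refine HasDerivAt.congr_of_eventuallyEq h ?_
  have t : Tendsto (fun u => (u, q.2)) (𝓝 q.1) (𝓝 q) :=
    (Continuous.prodMk_left q.2).tendsto' _ _ rfl
  exact (t.eventually (hD.mem_nhds hq)).mono fun s hs => (e _ hs).symm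

theorem Dv_congr (hD : IsOpen D) (hq : q ∈ D) (e : ∀ q ∈ D, a q = b q) {d : ℝ} (h : Dv a q d) :
    Dv b q d := by
  refine HasDerivAt.congr_of_eventuallyEq h ?_
  have t : Tendsto (fun v => (q.1, v)) (𝓝 q.2) (𝓝 q) :=
    (Continuous.prodMk_right q.1).tendsto' _ _ rfl
  exact (t.eventually (hD.mem_nhds hq)).mono fun s hs => (e _ hs).symm

theorem mixed_u (hD : IsOpen D) (ha : ContDiffOn ℝ ∞ a D) (hb : ∀ q ∈ D, Du a q (b q))
    (hq : q ∈ D) {d : ℝ} (h : Dv b q d) : Du (dv a) q d := by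
  obtain ⟨m, h1, h2⟩ := mixed hD ha hq
  have h3 : Dv b q m := Dv_congr hD hq
    (fun q hq => HasDerivAt.unique (du_spec (diffAt hD ha hq)) (hb q hq)) h2
  rwa [HasDerivAt.unique h h3]

theorem mixed_v (hD : IsOpen D) (ha : ContDiffOn ℝ ∞ a D) (hb : ∀ q ∈ D, Dv a q (b q))
    (hq : q ∈ D) {d : ℝ} (h : Du b q d) : Dv (du a) q d := by
  obtain ⟨m, h1, h2⟩ := mixed hD ha hq
  have h3 : Du b q m := Du_congr hD hq
    (fun q hq => HasDerivAt.unique (dv_spec (diffAt hD ha hq)) (hb q hq)) h1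
  rwa [HasDerivAt.unique h h3]

theorem transport (hD : Seg D) (ha : ContDiffOn ℝ ∞ a D) (hb : ∀ q ∈ D, Du a q (b q))
    (hg : ∀ q ∈ D, Dv b q (g q)) (hc : ∀ q ∈ D, Du c q (g q))
    (hd : ∀ x : ℝ, (-x, x) ∈ D →
      HasDerivAt (fun x : ℝ => a (-x, x)) (c (-x, x) - b (-x, x)) x) :
    ∀ q ∈ D, Dv a q (c q) := by
  intro q hq
  have h1 := hD.const_u (a := fun q => dv a q - c q) (fun q hq =>
    ((mixed_u hD.isOpen ha hb hq (hg q hq)).sub (hc q hq)).congr_d (sub_self _)) hq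
  have h0 : (-q.2, q.2) ∈ D := hD.u q hq _ left_mem_uIcc
  have h2 := HasDerivAt.unique (diag_spec (diffAt hD.isOpen ha h0)) (hd _ h0)
  have h3 := HasDerivAt.unique (du_spec (diffAt hD.isOpen ha h0)) (hb _ h0)
  exact (dv_spec (diffAt hD.isOpen ha hq)).congr_d (by linarith)

/-- The evolution part of the reduced system. -/
structure PreAt (e : ℝ) (S : Fld) (q : P2) : Prop where
  pos : 0 < S.r q
  r_u : Du S.r q (S.n q)
  w_u : Du S.w q (S.wu q)
  p_u : Du S.p q (S.pu q)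
  l_u : Du S.l q (G1 e S q)
  n_v : Dv S.n q (G1 e S q)
  pv_u : Du S.pv q (G2 S q)
  pu_v : Dv S.pu q (G2 S q)
  wv_u : Du S.wv q (G3 e S q)
  wu_v : Dv S.wu q (G3 e S q)

theorem G1_v {e : ℝ} {S : Fld} {q : P2} (hr : S.r q ≠ 0) {r' w' l' n' : ℝ} (h1 : Dv S.r q r')
    (h2 : Dv S.w q w') (h3 : Dv S.l q l') (h4 : Dv S.n q n') :
    Dv (G1 e S) q (-(S.O q * w' / (4 * S.r q)) * (1 - e ^ 2 / S.r q ^ 2) +
      S.O q * r' / (4 * S.r q ^ 2) * (1 - e ^ 2 / S.r q ^ 2) -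
      S.O q * e ^ 2 * r' / (2 * S.r q ^ 4) - (l' * S.n q + S.l q * n') / S.r q +
      S.l q * S.n q * r' / S.r q ^ 2) := by
  have hO : Dv S.O q (S.O q * w') := HasDerivAt.exp h2
  have k := (((hO.div (h1.const_mul 4) (by simpa using hr)).neg).mul
    ((Dv.const 1 q).sub ((Dv.const (e ^ 2) q).div h1.sq (pow_ne_zero 2 hr)))).sub
    ((h3.mul h4).div h1 hr)
  refine Dv.congr_d k ?_
  field_simp
  ring

theorem G1_u {e : ℝ} {S : Fld} {q : P2} (hr : S.r q ≠ 0) {r' w' l' n' : ℝ} (h1 : Du S.r q r')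
    (h2 : Du S.w q w') (h3 : Du S.l q l') (h4 : Du S.n q n') :
    Du (G1 e S) q (-(S.O q * w' / (4 * S.r q)) * (1 - e ^ 2 / S.r q ^ 2) +
      S.O q * r' / (4 * S.r q ^ 2) * (1 - e ^ 2 / S.r q ^ 2) -
      S.O q * e ^ 2 * r' / (2 * S.r q ^ 4) - (l' * S.n q + S.l q * n') / S.r q +
      S.l q * S.n q * r' / S.r q ^ 2) := by
  have hO : Du S.O q (S.O q * w') := HasDerivAt.exp h2
  have k := (((hO.div (h1.const_mul 4) (by simpa using hr)).neg).mul
    ((Du.const 1 q).sub ((Du.const (e ^ 2) q).div h1.sq (pow_ne_zero 2 hr)))).sub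
    ((h3.mul h4).div h1 hr)
  refine Du.congr_d k ?_
  field_simp
  ring

/-- Propagation of the constraints. -/
theorem solAt_of_pre {e : ℝ} {S : Fld} (hD : Seg D) (hs : Smooth S D)
    (hp : ∀ q ∈ D, PreAt e S q) (hz : IsRDat e S) : ∀ q ∈ D, P354E.SolAt e S q := by
  have hO := hD.isOpen
  have r_v := transport hD hs.r (fun q hq => (hp q hq).r_u) (fun q hq => (hp q hq).n_v)
    (fun q hq => (hp q hq).l_u) (fun x _ => hz.dr x)
  have w_v := transport hD hs.w (fun q hq => (hp q hq).w_u) (fun q hq => (hp q hq).wu_v)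
    (fun q hq => (hp q hq).wv_u) (fun x _ => hz.dw x)
  have p_v := transport hD hs.p (fun q hq => (hp q hq).p_u) (fun q hq => (hp q hq).pu_v)
    (fun q hq => (hp q hq).pv_u) (fun x _ => hz.dp x)
  have l_v : ∀ q ∈ D, Dv S.l q (S.l q * S.wv q - S.r q * S.pv q ^ 2) := by
    intro q hq
    have h1 := hD.const_u
      (a := fun q => S.r q * (dv S.l q - S.l q * S.wv q + S.r q * S.pv q ^ 2)) (fun q hq => by
        have P := hp q hq
        have hr := P.pos.ne'
        have m := mixed_u hO hs.l (fun q hq => (hp q hq).l_u) hq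
          (G1_v (e := e) hr (r_v q hq) (w_v q hq) (dv_spec (diffAt hO hs.l hq)) P.n_v)
        refine (P.r_u.mul ((m.sub (P.l_u.mul P.wv_u)).add (P.r_u.mul P.pv_u.sq))).congr_d ?_
        unfold G1 G2 G3
        field_simp
        ring) hq
    have h0 : (-q.2, q.2) ∈ D := hD.u q hq _ left_mem_uIcc
    have h2 := HasDerivAt.unique (diag_spec (diffAt hO hs.l h0)) (hz.dl q.2)
    have h3 := HasDerivAt.unique (du_spec (diffAt hO hs.l h0)) (hp _ h0).l_u
    have h4 : dv S.l (-q.2, q.2) - S.l (-q.2, q.2) * S.wv (-q.2, q.2) +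
        S.r (-q.2, q.2) * S.pv (-q.2, q.2) ^ 2 = 0 := by linarith
    simp only [h4, mul_zero] at h1
    have h5 := (mul_eq_zero.1 h1).resolve_left (hp q hq).pos.ne'
    exact (dv_spec (diffAt hO hs.l hq)).congr_d (by linarith)
  have n_u : ∀ q ∈ D, Du S.n q (S.n q * S.wu q - S.r q * S.pu q ^ 2) := by
    intro q hq
    have h1 := hD.const_v
      (a := fun q => S.r q * (du S.n q - S.n q * S.wu q + S.r q * S.pu q ^ 2)) (fun q hq => by
        have P := hp q hq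
        have hr := P.pos.ne'
        have m := mixed_v hO hs.n (fun q hq => (hp q hq).n_v) hq
          (G1_u (e := e) hr P.r_u P.w_u P.l_u (du_spec (diffAt hO hs.n hq)))
        refine ((r_v q hq).mul ((m.sub (P.n_v.mul P.wu_v)).add
          ((r_v q hq).mul P.pu_v.sq))).congr_d ?_
        unfold G1 G2 G3
        field_simp
        ring) hq
    have h0 : (q.1, -q.1) ∈ D := hD.v q hq _ left_mem_uIcc
    have h0' : (- -q.1, -q.1) ∈ D := by rwa [neg_neg]
    have h2 := HasDerivAt.unique (diag_spec (diffAt hO hs.n h0')) (hz.dn (-q.1))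
    rw [neg_neg] at h2
    have h3 := HasDerivAt.unique (dv_spec (diffAt hO hs.n h0)) (hp _ h0).n_v
    have h4 : du S.n (q.1, -q.1) - S.n (q.1, -q.1) * S.wu (q.1, -q.1) +
        S.r (q.1, -q.1) * S.pu (q.1, -q.1) ^ 2 = 0 := by linarith
    simp only [h4, mul_zero] at h1
    have h5 := (mul_eq_zero.1 h1).resolve_left (hp q hq).pos.ne'
    exact (du_spec (diffAt hO hs.n hq)).congr_d (by linarith)
  intro q hq
  have P := hp q hq
  exact ⟨P.pos, P.r_u, r_v q hq, P.w_u, w_v q hq, P.p_u, p_v q hq, P.l_u, P.n_v, P.pv_u, P.pu_v,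
    P.wv_u, P.wu_v, l_v q hq, n_u q hq⟩

end Vale.Agent.P354W
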