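import Vale.Agent.P354W.Main
import Vale.Agent.P354W.Cons
import Vale.Agent.P354W.Apri

/-!
The reduced Einstein-Maxwell-scalar field system as a diagonal system: existence of the maximal
solution and Cauchy stability.
-/

open Set Filter Topology
open scoped ContDiff

noncomputable section

namespace Vale.Agent.P354W

open Vale.Agent.P354E (P2 Du Dv Fld G1 G2 G3 IsSol IsDom IsRDat Smooth Cont dd tr)

/-- The state space: `(n, wu, pu)` and `(r, w, p, l, wv, pv, e)`. -/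
abbrev St : Type := (Fin 3 → ℝ) × (Fin 7 → ℝ)

/-- The fields read from a state valued map. -/
def dec (Z : P2 → St) : Fld where
  r q := (Z q).2 0
  w q := (Z q).2 1
  p q := (Z q).2 2
  l q := (Z q).2 3
  n q := (Z q).1 0
  wu q := (Z q).1 1
  wv q := (Z q).2 4
  pu q := (Z q).1 2
  pv q := (Z q).2 5

/-- The state of the fields. -/
def enc (e : ℝ) (S : Fld) (q : P2) : St :=
  (![S.n q, S.wu q, S.pu q], ![S.r q, S.w q, S.p q, S.l q, S.wv q, S.pv q, e])

/-- `r_uv` on states. -/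
def g1 (y : St) : ℝ := G1 (y.2 6) (dec fun _ => y) 0

/-- `phi_uv` on states. -/
def g2 (y : St) : ℝ := G2 (dec fun _ => y) 0

/-- `w_uv` on states. -/
def g3 (y : St) : ℝ := G3 (y.2 6) (dec fun _ => y) 0

/-- The right side of the diagonal system. -/
def rhs (y : St) : St :=
  (![g1 y, g3 y, g2 y], ![y.1 0, y.1 1, y.1 2, g1 y, g3 y, g2 y, 0])

/-- The states with `r > 0`. -/
def Upos : Set St := {y | 0 < y.2 0}

theorem isOpen_Upos : IsOpen Upos := isOpen_lt continuous_const (by fun_prop)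

theorem contDiffOn_g1 : ContDiffOn ℝ ∞ g1 Upos := by
  unfold g1 G1 Fld.O dec
  have : ∀ y ∈ Upos, y.2 0 ≠ 0 := fun y hy => ne_of_gt hy
  fun_prop (disch := intro y hy; have := this y hy; positivity)

theorem contDiffOn_g2 : ContDiffOn ℝ ∞ g2 Upos := by
  unfold g2 G2 dec
  have : ∀ y ∈ Upos, y.2 0 ≠ 0 := fun y hy => ne_of_gt hy
  fun_prop (disch := intro y hy; have := this y hy; positivity)

theorem contDiffOn_g3 : ContDiffOn ℝ ∞ g3 Upos := by
  unfold g3 G3 Fld.O dec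
  have : ∀ y ∈ Upos, y.2 0 ≠ 0 := fun y hy => ne_of_gt hy
  fun_prop (disch := intro y hy; have := this y hy; positivity)

theorem contDiffOn_rhs : ContDiffOn ℝ ∞ rhs Upos := by
  refine ContDiffOn.prodMk (contDiffOn_pi.2 fun i => ?_) (contDiffOn_pi.2 fun i => ?_)
  · fin_cases i
    · exact contDiffOn_g1
    · exact contDiffOn_g3
    · exact contDiffOn_g2
  · fin_cases i
    · exact (by fun_prop : ContDiffOn ℝ ∞ (fun y : St => y.1 0) Upos)
    · exact (by fun_prop : ContDiffOn ℝ ∞ (fun y : St => y.1 1) Upos)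
    · exact (by fun_prop : ContDiffOn ℝ ∞ (fun y : St => y.1 2) Upos)
    · exact contDiffOn_g1
    · exact contDiffOn_g3
    · exact contDiffOn_g2
    · exact contDiffOn_const

theorem pre_of_solAt {Z : P2 → St} {q : P2} {e : ℝ} (h : SolAt rhs Z q) (hU : Z q ∈ Upos)
    (he : (Z q).2 6 = e) : PreAt e (dec Z) q := by
  subst he
  have h1 := hasDerivAt_pi.1 h.1
  have h2 := hasDerivAt_pi.1 h.2
  exact ⟨hU, h2 0, h2 1, h2 2, h2 3, h1 0, h2 5, h1 2, h2 4, h1 1⟩

theorem solAt_enc {e : ℝ} {S : Fld} {q : P2} (h : P354E.SolAt e S q) : SolAt rhs (enc e S) q := by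
  refine ⟨hasDerivAt_pi.2 fun i => ?_, hasDerivAt_pi.2 fun i => ?_⟩
  · fin_cases i
    · exact h.n_v
    · exact h.wu_v
    · exact h.pu_v
  · fin_cases i
    · exact h.r_u
    · exact h.w_u
    · exact h.p_u
    · exact h.l_u
    · exact h.wv_u
    · exact h.pv_u
    · exact hasDerivAt_const _ e

theorem continuousOn_enc {e : ℝ} {S : Fld} {D : Set P2} (h : Cont S D) :
    ContinuousOn (enc e S) D := by
  refine ContinuousOn.prodMk (continuousOn_pi.2 fun i => ?_) (continuousOn_pi.2 fun i => ?_)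
  · fin_cases i
    · exact h.n
    · exact h.wu
    · exact h.pu
  · fin_cases i
    · exact h.r
    · exact h.w
    · exact h.p
    · exact h.l
    · exact h.wv
    · exact h.pv
    · exact continuousOn_const

theorem norm_le_of_comp {y : St} {B : ℝ} (hB : 0 ≤ B) (h1 : ∀ i, |y.1 i| ≤ B)
    (h2 : ∀ i, |y.2 i| ≤ B) : ‖y‖ ≤ B :=
  max_le ((pi_norm_le_iff_of_nonneg hB).2 h1) ((pi_norm_le_iff_of_nonneg hB).2 h2)

theorem comp_le_norm₁ (y : St) (i : Fin 3) : |y.1 i| ≤ ‖y‖ :=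
  (norm_le_pi_norm y.1 i).trans (norm_fst_le y)

theorem comp_le_norm₂ (y : St) (i : Fin 7) : |y.2 i| ≤ ‖y‖ :=
  (norm_le_pi_norm y.2 i).trans (norm_snd_le y)

theorem norm_enc_sub {e e' δ : ℝ} {S S' : Fld} {q : P2} (he : |e' - e| ≤ δ)
    (hd : dd S' S q ≤ δ) : ‖enc e' S' q - enc e S q‖ ≤ δ := by
  unfold dd at hd
  have a1 := abs_nonneg (S'.r q - S.r q)
  have a2 := abs_nonneg (S'.w q - S.w q)
  have a3 := abs_nonneg (S'.p q - S.p q)
  have a4 := abs_nonneg (S'.l q - S.l q)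
  have a5 := abs_nonneg (S'.n q - S.n q)
  have a6 := abs_nonneg (S'.wu q - S.wu q)
  have a7 := abs_nonneg (S'.wv q - S.wv q)
  have a8 := abs_nonneg (S'.pu q - S.pu q)
  have a9 := abs_nonneg (S'.pv q - S.pv q)
  refine norm_le_of_comp ((abs_nonneg _).trans he) (fun i => ?_) fun i => ?_
  · fin_cases i
    · exact (by linarith : |S'.n q - S.n q| ≤ δ)
    · exact (by linarith : |S'.wu q - S.wu q| ≤ δ)
    · exact (by linarith : |S'.pu q - S.pu q| ≤ δ)
  · fin_cases i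
    · exact (by linarith : |S'.r q - S.r q| ≤ δ)
    · exact (by linarith : |S'.w q - S.w q| ≤ δ)
    · exact (by linarith : |S'.p q - S.p q| ≤ δ)
    · exact (by linarith : |S'.l q - S.l q| ≤ δ)
    · exact (by linarith : |S'.wv q - S.wv q| ≤ δ)
    · exact (by linarith : |S'.pv q - S.pv q| ≤ δ)
    · exact he

theorem dd_le_norm (e e' : ℝ) (S S' : Fld) (q : P2) :
    dd S' S q ≤ 9 * ‖enc e' S' q - enc e S q‖ := by
  have a1 : |S'.r q - S.r q| ≤ _ := comp_le_norm₂ (enc e' S' q - enc e S q) 0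
  have a2 : |S'.w q - S.w q| ≤ _ := comp_le_norm₂ (enc e' S' q - enc e S q) 1
  have a3 : |S'.p q - S.p q| ≤ _ := comp_le_norm₂ (enc e' S' q - enc e S q) 2
  have a4 : |S'.l q - S.l q| ≤ _ := comp_le_norm₂ (enc e' S' q - enc e S q) 3
  have a5 : |S'.n q - S.n q| ≤ _ := comp_le_norm₁ (enc e' S' q - enc e S q) 0
  have a6 : |S'.wu q - S.wu q| ≤ _ := comp_le_norm₁ (enc e' S' q - enc e S q) 1
  have a7 : |S'.wv q - S.wv q| ≤ _ := comp_le_norm₂ (enc e' S' q - enc e S q) 4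
  have a8 : |S'.pu q - S.pu q| ≤ _ := comp_le_norm₁ (enc e' S' q - enc e S q) 2
  have a9 : |S'.pv q - S.pv q| ≤ _ := comp_le_norm₂ (enc e' S' q - enc e S q) 5
  unfold dd
  linarith

theorem isCompact_box (c B : ℝ) : IsCompact ({y : St | c ≤ y.2 0} ∩ Metric.closedBall 0 B) :=
  (isCompact_closedBall 0 B).inter_left (isClosed_le continuous_const (by fun_prop))

/-- Bounded fields give a bounded state. -/
theorem exists_norm_le {e : ℝ} {S : Fld} {D : Set P2} {p : P2} (h : IsSol e S D) (hD : IsDom D)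
    {c C : ℝ} (hc : 0 < c) (hb : ∀ q ∈ D ∩ P354E.Tri p, c ≤ S.r q ∧ S.w q ≤ C) :
    ∃ B, 0 ≤ B ∧ ∀ q ∈ D ∩ P354E.Tri p, |S.r q| ≤ B ∧ |S.w q| ≤ B ∧ |S.p q| ≤ B ∧ |S.l q| ≤ B ∧
      |S.n q| ≤ B ∧ |S.wu q| ≤ B ∧ |S.wv q| ≤ B ∧ |S.pu q| ≤ B ∧ |S.pv q| ≤ B ∧ |e| ≤ B := by
  obtain ⟨⟨B1, a1, b1⟩, ⟨B2, a2, b2⟩, ⟨B3, a3, b3⟩, ⟨B4, a4, b4⟩, ⟨B5, a5, b5⟩, ⟨B6, a6, b6⟩,
    ⟨B7, a7, b7⟩, ⟨B8, a8, b8⟩, ⟨B9, a9, b9⟩⟩ := apriori h hD hc hb
  have a0 := abs_nonneg e
  refine ⟨B1 + B2 + B3 + B4 + B5 + B6 + B7 + B8 + B9 + |e|, by positivity, fun q hq => ?_⟩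
  have c1 := b1 q hq
  have c2 := b2 q hq
  have c3 := b3 q hq
  have c4 := b4 q hq
  have c5 := b5 q hq
  have c6 := b6 q hq
  have c7 := b7 q hq
  have c8 := b8 q hq
  have c9 := b9 q hq
  refine ⟨?_, ?_, ?_, ?_, ?_, ?_, ?_, ?_, ?_, ?_⟩ <;> linarith

theorem mem_tri_tr {p q : P2} (h : q ∈ P354E.Tri p) : tr q ∈ Tri (tr p) :=
  Or.inr ⟨by simp only [tr]; linarith [h.2.2], by simp only [tr]; linarith [h.2.1],
    by simp only [tr]; linarith [h.1]⟩

theorem tr_mem_Tri {p q : P2} (hp : 0 ≤ p.1 + p.2) (h : q ∈ Tri (tr p)) :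
    tr q ∈ P354E.Tri p := by
  have := (mem_tri_past (by simp only [tr]; linarith)).1 h
  simp only [tr] at this
  exact ⟨by simp only [tr]; linarith [this.2.2], by simp only [tr]; linarith [this.2.1],
    by simp only [tr]; linarith [this.1]⟩

end Vale.Agent.P354W

namespace Vale.Agent.P354E

open Vale.Agent.P354W (enc dec rhs Upos St)

theorem bExist : BExist := by
  intro e z hz
  have hsm := hz.smooth
  simp only [List.mem_cons, List.not_mem_nil, or_false, forall_eq_or_imp, forall_eq] at hsm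
  obtain ⟨s1, s2, s3, s4, s5, s6, s7, s8, s9⟩ := hsm
  have hz0 : ContDiff ℝ ∞ fun x : ℝ => enc e z (-x, x) := by
    refine ContDiff.prodMk (contDiff_pi.2 fun i => ?_) (contDiff_pi.2 fun i => ?_)
    · fin_cases i
      · exact s5
      · exact s6
      · exact s8
    · fin_cases i
      · exact s1
      · exact s2
      · exact s3
      · exact s4
      · exact s7
      · exact s9
      · exact contDiff_const
  obtain ⟨D, Z, h⟩ := P354W.exists_maxSol P354W.isOpen_Upos P354W.contDiffOn_rhs hz0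
    fun x => hz.pos x
  have hseg : P354W.Seg D := ⟨h.isOpen, fun q hq s hs => h.tri q hq (P354W.mem_tri_u hs),
    fun q hq s hs => h.tri q hq (P354W.mem_tri_v hs)⟩
  have he : ∀ q ∈ D, (Z q).2 6 = e := fun q hq => by
    rw [hseg.const_u (a := fun q => (Z q).2 6)
      (fun q hq => hasDerivAt_pi.1 (h.sol q hq).2 6) hq, h.data]
    rfl
  have c1 : ∀ i, ContDiffOn ℝ ∞ (fun q => (Z q).1 i) D := contDiffOn_pi.1 h.smooth.fst
  have c2 : ∀ i, ContDiffOn ℝ ∞ (fun q => (Z q).2 i) D := contDiffOn_pi.1 h.smooth.snd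
  have hs : Smooth (dec Z) D := ⟨c2 0, c2 1, c2 2, c2 3, c1 0, c1 1, c2 4, c1 2, c2 5⟩
  have d1 : ∀ x : ℝ, (dec Z).r (-x, x) = z.r (-x, x) := fun x => congrArg (·.2 0) (h.data x)
  have d2 : ∀ x : ℝ, (dec Z).w (-x, x) = z.w (-x, x) := fun x => congrArg (·.2 1) (h.data x)
  have d3 : ∀ x : ℝ, (dec Z).p (-x, x) = z.p (-x, x) := fun x => congrArg (·.2 2) (h.data x)
  have d4 : ∀ x : ℝ, (dec Z).l (-x, x) = z.l (-x, x) := fun x => congrArg (·.2 3) (h.data x)
  have d5 : ∀ x : ℝ, (dec Z).n (-x, x) = z.n (-x, x) := fun x => congrArg (·.1 0) (h.data x)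
  have d6 : ∀ x : ℝ, (dec Z).wu (-x, x) = z.wu (-x, x) := fun x => congrArg (·.1 1) (h.data x)
  have d7 : ∀ x : ℝ, (dec Z).wv (-x, x) = z.wv (-x, x) := fun x => congrArg (·.2 4) (h.data x)
  have d8 : ∀ x : ℝ, (dec Z).pu (-x, x) = z.pu (-x, x) := fun x => congrArg (·.1 2) (h.data x)
  have d9 : ∀ x : ℝ, (dec Z).pv (-x, x) = z.pv (-x, x) := fun x => congrArg (·.2 5) (h.data x)
  have hz' : IsRDat e (dec Z) := by
    refine ⟨?_, ?_, ?_, ?_, ?_, ?_, ?_⟩
    · simp only [List.mem_cons, List.not_mem_nil, or_false, forall_eq_or_imp, forall_eq,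
        d1, d2, d3, d4, d5, d6, d7, d8, d9]
      exact ⟨s1, s2, s3, s4, s5, s6, s7, s8, s9⟩
    · simpa only [d1] using hz.pos
    · simpa only [d1, d4, d5] using hz.dr
    · simpa only [d2, d6, d7] using hz.dw
    · simpa only [d3, d8, d9] using hz.dp
    · simpa only [G1, Fld.O, d1, d2, d4, d5, d7, d9] using hz.dl
    · simpa only [G1, Fld.O, d1, d2, d4, d5, d6, d8] using hz.dn
  have hsol : IsSol e (dec Z) D :=
    ⟨⟨hs.r.continuousOn, hs.w.continuousOn, hs.p.continuousOn, hs.l.continuousOn,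
      hs.n.continuousOn, hs.wu.continuousOn, hs.wv.continuousOn, hs.pu.continuousOn,
      hs.pv.continuousOn⟩,
      P354W.solAt_of_pre hseg hs
        (fun q hq => P354W.pre_of_solAt (h.sol q hq) (h.mem q hq) (he q hq)) hz'⟩
  have hdom : IsDom D := ⟨h.isOpen, h.base_mem, fun p hp q hq =>
    h.tri p hp (Or.inl ⟨hq.2.2, hq.1, hq.2.1⟩)⟩
  have hdom' : IsDom (tr ⁻¹' D) := ⟨h.isOpen.preimage continuous_tr,
    fun x => by simpa [tr] using h.base_mem x,
    fun p hp q hq => h.tri _ hp (P354W.mem_tri_tr hq)⟩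
  have box : ∀ {c B : ℝ}, 0 < c →
      ({y : St | c ≤ y.2 0} ∩ Metric.closedBall 0 B) ⊆ Upos := fun hc y hy => hc.trans_le hy.1
  refine ⟨dec Z, D, ⟨hsol, hdom, ?_⟩, ⟨hsol.tr, hdom', ?_⟩, hs, fun x => ?_⟩
  · intro p c C hp hc hb
    obtain ⟨B, hB, hB'⟩ := P354W.exists_norm_le hsol hdom hc hb
    refine h.ext _ (P354W.isCompact_box c B) (box hc) p fun q hq hqp => ?_
    rw [P354W.tri_eq hp] at hqp
    obtain ⟨b1, b2, b3, b4, b5, b6, b7, b8, b9, b0⟩ := hB' q ⟨hq, hqp⟩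
    refine ⟨(hb q ⟨hq, hqp⟩).1, mem_closedBall_zero_iff.2
      (P354W.norm_le_of_comp hB (fun i => ?_) fun i => ?_)⟩
    · fin_cases i
      · exact b5
      · exact b6
      · exact b8
    · fin_cases i
      · exact b1
      · exact b2
      · exact b3
      · exact b4
      · exact b7
      · exact b9
      · exact (congrArg abs (he q hq)).trans_le b0
  · intro p c C hp hc hb
    obtain ⟨B, hB, hB'⟩ := P354W.exists_norm_le hsol.tr hdom' hc hb
    refine h.ext _ (P354W.isCompact_box c B) (box hc) (tr p) fun q hq hqp => ?_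
    have hq' : tr q ∈ tr ⁻¹' D ∩ Tri p := ⟨by simpa using hq, P354W.tr_mem_Tri hp hqp⟩
    obtain ⟨b1, b2, b3, b4, b5, b6, b7, b8, b9, b0⟩ := hB' _ hq'
    have b := (hb _ hq').1
    simp only [Fld.tr, tr_invol, abs_neg] at b b1 b2 b3 b4 b5 b6 b7 b8 b9
    refine ⟨b, mem_closedBall_zero_iff.2
      (P354W.norm_le_of_comp hB (fun i => ?_) fun i => ?_)⟩
    · fin_cases i
      · exact b4
      · exact b7
      · exact b9
    · fin_cases i
      · exact b1
      · exact b2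
      · exact b3
      · exact b5
      · exact b6
      · exact b8
      · exact (congrArg abs (he q hq)).trans_le b0
  · simp only [dd, d1, d2, d3, d4, d5, d6, d7, d8, d9, sub_self, abs_zero, add_zero]

theorem bStab : BStab := by
  intro e S D p ε h hD hp ht hε
  have hT := P354W.tri_eq ht
  have hsub : P354W.Tri p ⊆ D := hT ▸ hD.tri p hp
  have hc : ContinuousOn (enc e S) (P354W.Tri p) := (P354W.continuousOn_enc h.cont).mono hsub
  obtain ⟨δ, hδ, C, hC, key⟩ := P354W.stability' P354W.isOpen_Upos P354W.contDiffOn_rhs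
    ((P354W.isCompact_tri p).image_of_continuousOn hc)
    (image_subset_iff.2 fun q hq => (h.sol q (hsub hq)).pos) |p.1 + p.2|
  refine ⟨min δ (ε / (9 * C)), by positivity, fun e' S' D' h' he hd => ?_⟩
  have fut : ∀ q ∈ P354W.Tri p, P354W.Tri q = Tri q := fun q hq =>
    P354W.tri_eq (hT ▸ hq : q ∈ Tri p).2.2
  obtain ⟨k1, k2⟩ := key (enc e S) p le_rfl hc (fun q hq => mem_image_of_mem _ hq)
    (fun q hq => P354W.solAt_enc (h.sol q (hsub hq))) D' (enc e' S')
    ⟨h'.dom.isOpen, P354W.continuousOn_enc h'.sol.cont,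
      fun q hq => P354W.solAt_enc (h'.sol.sol q hq),
      fun q hq hq' => fut q hq ▸ h'.dom.tri q hq',
      fun K hK hKU q hq hb => by
        have c0 : Continuous fun y : St => y.2 0 := by fun_prop
        have c1 : Continuous fun y : St => y.2 1 := by fun_prop
        obtain ⟨c, hc0, hc1⟩ := hK.exists_forall_le' c0.continuousOn (a := 0) hKU
        obtain ⟨B, hB⟩ := hK.bddAbove_image c1.continuousOn
        refine h'.ext q c B (hT ▸ hq : q ∈ Tri p).2.2 hc0 fun s hs => ?_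
        have := hb s hs.1 (fut q hq ▸ hs.2)
        exact ⟨hc1 _ this, hB (mem_image_of_mem _ this)⟩⟩
    (min δ (ε / (9 * C))) (min_le_left _ _)
    (fun x hx => P354W.norm_enc_sub he (hd x (by
      have : (-x, x) ∈ Tri p := hT ▸ hx
      exact ⟨by linarith [this.1], this.2.1⟩)))
  refine ⟨h'.dom.tri p k1, fun q hq => (P354W.dd_le_norm e e' S S' q).trans ?_⟩
  have h1 := k2 q (hT ▸ hq)
  have h2 : C * min δ (ε / (9 * C)) ≤ C * (ε / (9 * C)) :=
    mul_le_mul_of_nonneg_left (min_le_right _ _) hC.le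
  have h3 : C * (ε / (9 * C)) = ε / 9 := by field_simp
  linarith

end Vale.Agent.P354E
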