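import Vale.Agent.P354W.Strip2

/-!
Comparison of two solutions in a thin strip: the main estimate.
-/

open Set Filter Topology MeasureTheory

noncomputable section

namespace Vale.Agent.P354W

open Vale.Agent.P354E (P2 Du Dv Fld G1 G2 G3 IsSol O_pos dd)

/-- The sum of the weights. -/
def wW (S T : Fld) (q : P2) : ℝ := wX S q + wX T q

theorem wW_nonneg (S T : Fld) (q : P2) : 0 ≤ wW S T q :=
  add_nonneg (wX_ge S q).2.2.2 (wX_ge T q).2.2.2

variable {e K V R h P η o : ℝ} {S T : Fld} {q : P2}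

theorem dfO (_hη : 0 ≤ η) (hw : |S.w q - T.w q| ≤ η) (ho : wW S T q * η ≤ o) :
    Df K (wW S T q) o 0 (S.O q) (T.O q) := by
  have a1 := wX_ge S q
  have a2 := wX_ge T q
  refine ⟨?_, ?_, ?_⟩ <;> rw [pow_zero, one_mul]
  · rw [abs_of_pos (O_pos S q), wW]; linarith [a1.1, a2.2.2.2]
  · rw [abs_of_pos (O_pos T q), wW]; linarith [a2.1, a1.2.2.2]
  · refine (abs_exp_sub_le _ _).trans (le_trans ?_ ho)
    exact mul_le_mul (add_le_add a1.1 a2.1) hw (abs_nonneg _) (wW_nonneg S T q)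

theorem dfn (ho : |S.n q - T.n q| ≤ o) : Df K (wW S T q) o 0 (S.n q) (T.n q) := by
  have a1 := wX_ge S q
  have a2 := wX_ge T q
  refine ⟨?_, ?_, ?_⟩ <;> rw [pow_zero, one_mul]
  · rw [wW]; linarith [a1.2.1, a2.2.2.2]
  · rw [wW]; linarith [a2.2.1, a1.2.2.2]
  · exact ho

theorem dfz (ho : |S.r q * S.pu q - T.r q * T.pu q| ≤ o) :
    Df K (wW S T q) o 0 (S.r q * S.pu q) (T.r q * T.pu q) := by
  have a1 := wX_ge S q
  have a2 := wX_ge T q
  refine ⟨?_, ?_, ?_⟩ <;> rw [pow_zero, one_mul]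
  · rw [wW]; linarith [a1.2.2.1, a2.2.2.2]
  · rw [wW]; linarith [a2.2.2.1, a1.2.2.2]
  · exact ho

theorem dfH (hK : 2 ≤ K) (he : e ^ 2 ≤ K) (hη : 0 ≤ η) (hi : Df K 1 η 2 (S.r q)⁻¹ (T.r q)⁻¹)
    (hw : |S.w q - T.w q| ≤ η) :
    Df K (wW S T q) (wW S T q * η) 11 (hH e S q) (hH e T q) := by
  have c1 := Df.const hK hη (c := e ^ 2) (by rwa [abs_of_nonneg (sq_nonneg e)])
  have c2 := Df.const hK hη (c := 1) (by rw [abs_one]; linarith)
  have c3 := Df.const hK hη (c := -1 / 4) (by rw [abs_le]; constructor <;> linarith)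
  have k := Df.mul hK (wW_nonneg S T q) hη le_rfl (Df.mul' hK hη c3 (Df.add hK zero_le_one hη
    (c2.mono hK zero_le_one hη (by norm_num)) (Df.mul' hK hη (Df.mul' hK hη c1 hi) hi).neg))
    (dfO hη hw le_rfl)
  exact k.congr (by rw [hH]; ring) (by rw [hH]; ring)

theorem dfG3 (hK : 2 ≤ K) (he : e ^ 2 ≤ K) (hη : 0 ≤ η) (ho : wW S T q * η ≤ o)
    (hS : S.r q ≠ 0) (hT : T.r q ≠ 0) (hi : Df K 1 η 2 (S.r q)⁻¹ (T.r q)⁻¹)
    (hl : Df K 1 η 1 (S.l q) (T.l q)) (hp : Df K 1 η 1 (S.pv q) (T.pv q))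
    (hw : |S.w q - T.w q| ≤ η) (hn : |S.n q - T.n q| ≤ o)
    (hz : |S.r q * S.pu q - T.r q * T.pu q| ≤ o) :
    Df K (wW S T q) o 17 (G3 e S q) (G3 e T q) := by
  have W0 := wW_nonneg S T q
  have o0 : 0 ≤ o := (abs_nonneg _).trans hn
  have c1 := Df.const hK hη (c := e ^ 2) (by rwa [abs_of_nonneg (sq_nonneg e)])
  have c2 := Df.const hK hη (c := 2) (by rwa [abs_two])
  have c3 := Df.const hK hη (c := 1 / 2) (by rw [abs_le]; constructor <;> linarith)
  have t1 := (Df.mul hK W0 hη ho (Df.mul' hK hη (Df.mul' hK hη c2 hp) hi) (dfz hz)).neg.mono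
    hK W0 o0 (j := 14) (by norm_num)
  have t2 := (Df.mul hK W0 hη ho (Df.mul' hK hη (Df.mul' hK hη (Df.mul' hK hη
    (Df.mul' hK hη c1 hi) hi) hi) hi) (dfO hη hw ho)).neg.mono hK W0 o0 (j := 14) (by norm_num)
  have t3 := (Df.mul hK W0 hη ho (Df.mul' hK hη (Df.mul' hK hη c3 hi) hi) (dfO hη hw ho)).mono
    hK W0 o0 (j := 15) (by norm_num)
  have t4 := (Df.mul hK W0 hη ho (Df.mul' hK hη (Df.mul' hK hη (Df.mul' hK hη c2 hl) hi) hi)
    (dfn hn)).mono hK W0 o0 (j := 16) (by norm_num)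
  refine (Df.add hK W0 o0 (Df.add hK W0 o0 (Df.add hK W0 o0 t1 t2) t3) t4).congr ?_ ?_
  · rw [G3]; field_simp; ring
  · rw [G3]; field_simp; ring

theorem int_W (hK : 2 ≤ K) (cS : CC e S) (cT : CC e T) (pS : Pri K V R h S) (pT : Pri K V R h T)
    (hη : 0 ≤ η) {E : P2 → ℝ} (hE : Continuous E) {v ε : ℝ} (hv : v ∈ Icc R (R + h))
    (hε : ∫ y in (-v)..V, E (y, v) ≤ ε) (j : ℕ) :
    ∫ y in (-v)..V, K ^ j * (wW S T (y, v) * η + E (y, v)) ≤ K ^ j * (K ^ 2 * η + ε) := by
  rw [intervalIntegral.integral_const_mul]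
  refine mul_le_mul_of_nonneg_left ?_ (pow_nonneg (by linarith) j)
  have i1 := ii_line cS.W (-v) V v
  have i2 := ii_line cT.W (-v) V v
  simp only [wW]
  rw [intervalIntegral.integral_add ((i1.add i2).mul_const η) (ii_line hE _ _ _),
    intervalIntegral.integral_mul_const, intervalIntegral.integral_add i1 i2]
  refine add_le_add (mul_le_mul_of_nonneg_right ?_ hη) hε
  have := pS.int v hv
  have := pT.int v hv
  nlinarith

theorem abs_le_add_sub (x y : ℝ) : |x| ≤ |x - y| + |y| := by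
  simpa using abs_add_le (x - y) y

theorem strip_main (hS : IsSol e S univ) (hT : IsSol e T univ) (hV : 0 ≤ V) (hR : V ≤ R)
    (hh : 0 ≤ h) (hP : 0 ≤ P) (hK : 2 ≤ K) (he : e ^ 2 ≤ K) (hs : h * (22 * (K ^ 25) ^ 3) ≤ 1)
    (pS : Pri K V R h S) (pT : Pri K V R h T)
    (h0 : ∀ y ∈ Icc (-R) V, S.r (y, R) = T.r (y, R) ∧ S.w (y, R) = T.w (y, R) ∧
      S.n (y, R) = T.n (y, R) ∧ S.pu (y, R) = T.pu (y, R))
    (h1 : ∀ x ∈ Icc R (R + h), S.r (-x, x) = T.r (-x, x) ∧
      |S.w (-x, x) - T.w (-x, x)| ≤ K * h * P ∧ |S.l (-x, x) - T.l (-x, x)| ≤ K * h * P ∧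
      |S.n (-x, x) - T.n (-x, x)| ≤ K * h * P ∧ |S.wv (-x, x) - T.wv (-x, x)| ≤ K * P ∧
      |S.pu (-x, x) - T.pu (-x, x)| ≤ K * P ∧ |S.pv (-x, x) - T.pv (-x, x)| ≤ K * P) :
    ∀ q ∈ Om V R h, |S.r q - T.r q| ≤ K ^ 120 * h * P ∧
      |(S.r q * S.pv q - T.r q * T.pv q) - S.r (-q.2, q.2) * (S.pv (-q.2, q.2) - T.pv (-q.2, q.2))|
        ≤ K ^ 120 * h * P := by
  have cS := cc_of hS
  have cT := cc_of hT
  have K0 : 0 ≤ K := by linarith
  have pw : ∀ {i j : ℕ} {t : ℝ}, i ≤ j → 0 ≤ t → K ^ i * t ≤ K ^ j * t := fun hij ht =>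
    mul_le_mul_of_nonneg_right (pow_le_pow_right₀ (by linarith) hij) ht
  have rS : ∀ q, 0 < S.r q := fun q => hS.pos (mem_univ q)
  have rT : ∀ q, 0 < T.r q := fun q => hT.pos (mem_univ q)
  have sS : ∀ q, P354E.SolAt e S q := fun q => hS.sol q (mem_univ q)
  have sT : ∀ q, P354E.SolAt e T q := fun q => hT.sol q (mem_univ q)
  have cW : Continuous (wW S T) := cS.W.add cT.W
  have hOm := isCompact_Om V R h
  have ne : (Om V R h).Nonempty := ⟨(V, R), ⟨le_rfl, by linarith⟩, by simp only; linarith, le_rfl⟩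
  have neI : (Icc R (R + h)).Nonempty := ⟨R, le_rfl, by linarith⟩
  have dg : ∀ x ∈ Icc R (R + h), (-x, x) ∈ Om V R h := fun x hx =>
    ⟨hx, le_rfl, by simp only; linarith [hx.1]⟩
  have cn : Continuous fun q => |S.n q - T.n q| := (cS.n.sub cT.n).abs
  have cz : Continuous fun q => |S.r q * S.pu q - T.r q * T.pu q| :=
    ((cS.r.mul cS.pu).sub (cT.r.mul cT.pu)).abs
  obtain ⟨a, a0, ha, ha'⟩ := exists_sup hOm ne (cS.r.sub cT.r).abs fun _ _ => abs_nonneg _
  obtain ⟨b, b0, hb, hb'⟩ := exists_sup hOm ne (cS.l.sub cT.l).abs fun _ _ => abs_nonneg _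
  obtain ⟨c, c0, hc, hc'⟩ := exists_sup hOm ne (cS.w.sub cT.w).abs fun _ _ => abs_nonneg _
  obtain ⟨g, g0, hg, hg'⟩ := exists_sup hOm ne (cS.pv.sub cT.pv).abs fun _ _ => abs_nonneg _
  obtain ⟨k, k0, hk, hk'⟩ := exists_sup hOm ne (cS.wv.sub cT.wv).abs fun _ _ => abs_nonneg _
  obtain ⟨d, d0, hd, hd'⟩ := exists_sup isCompact_Icc neI
    (cont_int (f := fun v y => |S.n (y, v) - T.n (y, v)|) (cn.comp continuous_swap)
      continuous_neg (continuous_const (y := V)))
    fun v hv => intervalIntegral.integral_nonneg (by linarith [hv.1]) fun _ _ => abs_nonneg _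
  obtain ⟨f, f0, hf, hf'⟩ := exists_sup isCompact_Icc neI
    (cont_int (f := fun v y => |S.r (y, v) * S.pu (y, v) - T.r (y, v) * T.pu (y, v)|)
      (cz.comp continuous_swap) continuous_neg (continuous_const (y := V)))
    fun v hv => intervalIntegral.integral_nonneg (by linarith [hv.1]) fun _ _ => abs_nonneg _
  simp only [Pi.sub_apply] at ha ha' hb hb' hc hc' hg hg' hk hk'
  set X := a + c + f with hX
  have X0 : 0 ≤ X := by positivity
  have hP0 : 0 ≤ h * P := by positivity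
  have di : ∀ {η : ℝ}, a ≤ η → ∀ q ∈ Om V R h, Df K 1 η 2 (S.r q)⁻¹ (T.r q)⁻¹ := fun hη q hq =>
    Df.inv hK (rS q) (rT q) (pS.i q hq) (pT.i q hq) ((ha q hq).trans hη)
  have base : ∀ {s t B : ℝ}, ∀ x ∈ Icc R (R + h), |s - t| ≤ K * B →
      |S.r (-x, x) * s - T.r (-x, x) * t| ≤ K ^ 2 * B := fun x hx hst => by
    rw [← (h1 x hx).1, ← mul_sub, abs_mul, sq, mul_assoc]
    exact mul_le_mul (pS.r _ (dg x hx)) hst (abs_nonneg _) K0
  have prod : ∀ {s t : ℝ}, |s| ≤ K → |t| ≤ K → ∀ j, 2 ≤ j → |s * t| ≤ K ^ j * 1 :=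
    fun hs ht j hj => by
      rw [abs_mul]
      exact (mul_le_mul hs ht (abs_nonneg _) K0).trans
        ((by rw [sq, mul_one] : K * K = K ^ 2 * 1).le.trans (pw hj zero_le_one))
  have eH : ∀ q ∈ Om V R h, |hH e S q - hH e T q| ≤ K ^ 11 * (wW S T q * X + 0) := fun q hq => by
    rw [add_zero]
    exact (dfH hK he X0 (di (by linarith) q hq) ((hc q hq).trans (by linarith))).d
  have iH : ∀ v ∈ Icc R (R + h), ∫ y in (-v)..V, K ^ 11 * (wW S T (y, v) * X + 0) ≤ K ^ 13 * X :=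
    fun v hv => (int_W hK cS cT pS pT X0 (E := fun _ => 0) continuous_const hv
      (ε := 0) (by simp) 11).trans (le_of_eq (by ring))
  have eb : b ≤ K ^ 25 * (h * P + X) := hb' _ fun q hq => by
    have t1 := (int_u_le (f := fun q => S.r q * S.l q - T.r q * T.l q)
      (g := fun q => hH e S q - hH e T q) (m := fun q => K ^ 11 * (wW S T q * X + 0))
      (fun q => (sS q).rl_u.sub (sT q).rl_u) (cS.H.sub cT.H) (by fun_prop) hq.2
      fun y hy => eH (y, q.2) ⟨hq.1, hy⟩).trans (iH q.2 hq.1)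
    have t2 := base (B := h * P) q.2 hq.1 (by rw [← mul_assoc]; exact (h1 q.2 hq.1).2.2.1)
    have t3 := pw (show 2 ≤ 13 by norm_num) hP0
    have t4 : Df K 1 (h * P + X) 13 (S.r q * S.l q) (T.r q * T.l q) :=
      ⟨prod (pS.r q hq) (pS.l q hq) _ (by norm_num), prod (pT.r q hq) (pT.l q hq) _ (by norm_num),
        (abs_le_add_sub _ _).trans ((add_le_add t1 t2).trans (by linarith))⟩
    have t5 := (Df.mul' hK (by positivity) (di (by linarith) q hq) t4).d
    rw [inv_mul_cancel_left₀ (rS q).ne', inv_mul_cancel_left₀ (rT q).ne'] at t5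
    exact t5.trans (pw (by norm_num) (by positivity))
  have hh1 : h ≤ 1 := by
    have : 1 ≤ (K ^ 25) ^ 3 := one_le_pow₀ (one_le_pow₀ (by linarith))
    nlinarith
  have ed : d ≤ K ^ 25 * (h * P + X) := hd' _ fun v hv => by
    have cβ : Continuous fun q => S.r q * S.n q - T.r q * T.n q :=
      (cS.r.mul cS.n).sub (cT.r.mul cT.n)
    have t1 := L1_v_le (V := V) (R := R) (h := h) (f := fun q => S.r q * S.n q - T.r q * T.n q)
      (g := fun q => hH e S q - hH e T q) (by linarith) (fun q => (sS q).rn_v.sub (sT q).rn_v)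
      cβ (cS.H.sub cT.H) (a := K ^ 2 * (h * P)) (b := K ^ 13 * X)
      (fun s hs => le_trans (intervalIntegral.integral_mono_on (by linarith [hs.1])
        (ii_line (cS.H.sub cT.H) _ _ _).abs
        (ii_line (f := fun q => K ^ 11 * (wW S T q * X + 0)) (by fun_prop) _ _ _)
        fun y hy => eH (y, s) ⟨hs, hy⟩) (iH s hs))
      (fun y hy => by rw [(h0 y hy).1, (h0 y hy).2.2.1, sub_self])
      (fun x hx => base x hx (by rw [← mul_assoc]; exact (h1 x hx).2.2.2.1)) v hv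
    have t2 := int_W hK cS cT pS pT X0 cβ.abs hv t1 4
    have t3 : ∫ y in (-v)..V, |S.n (y, v) - T.n (y, v)| ≤ _ :=
      le_trans (intervalIntegral.integral_mono_on (by linarith [hv.1]) (ii_line cn _ _ _)
        (ii_line (f := fun q => K ^ 4 * (wW S T q * X + |S.r q * S.n q - T.r q * T.n q|))
          (by fun_prop) _ _ _) fun y hy => by
          have hq : (y, v) ∈ Om V R h := ⟨hv, hy⟩
          have W0 := wW_nonneg S T (y, v)
          have n1 := dfn (K := K) (S := S) (T := T) (q := (y, v)) le_rfl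
          have u1 : Df K (wW S T (y, v)) (wW S T (y, v) * X +
              |S.r (y, v) * S.n (y, v) - T.r (y, v) * T.n (y, v)|) 1
              (S.r (y, v) * S.n (y, v)) (T.r (y, v) * T.n (y, v)) := by
            refine ⟨?_, ?_, ?_⟩
            · rw [abs_mul, pow_one]
              exact mul_le_mul (pS.r _ hq) (by simpa using n1.a) (abs_nonneg _) K0
            · rw [abs_mul, pow_one]
              exact mul_le_mul (pT.r _ hq) (by simpa using n1.b) (abs_nonneg _) K0
            · have := abs_nonneg (S.r (y, v) * S.n (y, v) - T.r (y, v) * T.n (y, v))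
              have := mul_nonneg W0 X0
              rw [pow_one]
              nlinarith
          have u2 := (Df.mul hK W0 X0 (le_add_of_nonneg_right (abs_nonneg _))
            (di (by linarith) _ hq) u1).d
          rwa [inv_mul_cancel_left₀ (rS _).ne', inv_mul_cancel_left₀ (rT _).ne'] at u2) t2
    refine t3.trans ?_
    have t4 := pw (show 2 ≤ 13 by norm_num) hP0
    have t5 := pw (show 2 ≤ 13 by norm_num) X0
    have t6 : h * (K ^ 2 * (h * P) + K ^ 13 * X) ≤ K ^ 13 * (h * P + X) :=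
      (mul_le_of_le_one_left (by positivity) hh1).trans (by linarith)
    have t7 := Df.two_le hK (add_nonneg hP0 X0) 13
    have t8 : 0 ≤ K ^ 13 * (h * P) := by positivity
    calc _ ≤ K ^ 4 * (K ^ (13 + 1) * (h * P + X)) :=
          mul_le_mul_of_nonneg_left (by linarith) (by positivity)
      _ = K ^ 18 * (h * P + X) := by ring
      _ ≤ _ := pw (by norm_num) (by positivity)
  have eth : ∀ q ∈ Om V R h, |(S.r q * S.pv q - T.r q * T.pv q) -
      (S.r (-q.2, q.2) * S.pv (-q.2, q.2) - T.r (-q.2, q.2) * T.pv (-q.2, q.2))| ≤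
      K ^ 8 * (X + b) := fun q hq => by
    have η0 : 0 ≤ X + b := by positivity
    have t1 := (int_u_le (f := fun q => S.r q * S.pv q - T.r q * T.pv q)
      (g := fun q => -(S.l q * S.pu q) - -(T.l q * T.pu q))
      (m := fun q => K ^ 5 * (wW S T q * (X + b) + |S.r q * S.pu q - T.r q * T.pu q|))
      (fun q => (sS q).th_u.sub (sT q).th_u) ((cS.l.mul cS.pu).neg.sub (cT.l.mul cT.pu).neg)
      (by fun_prop) hq.2 fun y hy => by
        have hq' : (y, q.2) ∈ Om V R h := ⟨hq.1, hy⟩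
        have W0 := wW_nonneg S T (y, q.2)
        refine ((Df.mul hK W0 η0 (le_add_of_nonneg_right (abs_nonneg _))
          (Df.mul' hK η0 (Df.of_le hK η0 (pS.l _ hq') (pT.l _ hq') ((hb _ hq').trans (by linarith)))
            (di (by linarith) _ hq'))
          (dfz (le_add_of_nonneg_left (mul_nonneg W0 η0)))).neg.congr ?_ ?_).d
        · rw [mul_assoc, inv_mul_cancel_left₀ (rS _).ne']
        · rw [mul_assoc, inv_mul_cancel_left₀ (rT _).ne']).trans
      (int_W hK cS cT pS pT η0 cz hq.1 (hf q.2 hq.1) 5)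
    refine t1.trans ?_
    have t2 := pw (show 0 ≤ 2 by norm_num) η0
    have t3 := Df.two_le hK η0 2
    rw [pow_zero, one_mul] at t2
    calc _ ≤ K ^ 5 * (K ^ (2 + 1) * (X + b)) :=
          mul_le_mul_of_nonneg_left (by linarith) (by positivity)
      _ = _ := by ring
  have eg : g ≤ K ^ 25 * (P + X + b) := hg' _ fun q hq => by
    have t2 := base (B := P) q.2 hq.1 (h1 q.2 hq.1).2.2.2.2.2.2
    have t3 := pw (show 2 ≤ 8 by norm_num) hP
    have t4 : Df K 1 (P + X + b) 8 (S.r q * S.pv q) (T.r q * T.pv q) :=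
      ⟨prod (pS.r q hq) (pS.pv q hq) _ (by norm_num), prod (pT.r q hq) (pT.pv q hq) _ (by norm_num),
        (abs_le_add_sub _ _).trans ((add_le_add (eth q hq) t2).trans (by linarith))⟩
    have t5 := (Df.mul' hK (by positivity) (di (by linarith) q hq) t4).d
    rw [inv_mul_cancel_left₀ (rS q).ne', inv_mul_cancel_left₀ (rT q).ne'] at t5
    exact t5.trans (pw (by norm_num) (by positivity))
  have ek : k ≤ K ^ 25 * (P + X + b + g + d) := hk' _ fun q hq => by
    have η0 : 0 ≤ X + b + g := by positivity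
    have t0 : ∫ y in (-q.2)..V, (|S.r (y, q.2) * S.pu (y, q.2) - T.r (y, q.2) * T.pu (y, q.2)| +
        |S.n (y, q.2) - T.n (y, q.2)|) ≤ f + d := by
      rw [intervalIntegral.integral_add (ii_line cz _ _ _) (ii_line cn _ _ _)]
      exact add_le_add (hf q.2 hq.1) (hd q.2 hq.1)
    have t1 := (int_u_le (f := fun q => S.wv q - T.wv q) (g := fun q => G3 e S q - G3 e T q)
      (m := fun q => K ^ 17 * (wW S T q * (X + b + g) +
        (|S.r q * S.pu q - T.r q * T.pu q| + |S.n q - T.n q|)))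
      (fun q => (sS q).wv_u.sub (sT q).wv_u) (cS.g3.sub cT.g3) (by fun_prop) hq.2 fun y hy => by
        have hq' : (y, q.2) ∈ Om V R h := ⟨hq.1, hy⟩
        have W0 := mul_nonneg (wW_nonneg S T (y, q.2)) η0
        have z0 := abs_nonneg (S.r (y, q.2) * S.pu (y, q.2) - T.r (y, q.2) * T.pu (y, q.2))
        have n0 := abs_nonneg (S.n (y, q.2) - T.n (y, q.2))
        exact (dfG3 hK he η0 (by linarith) (rS _).ne' (rT _).ne' (di (by linarith) _ hq')
          (Df.of_le hK η0 (pS.l _ hq') (pT.l _ hq') ((hb _ hq').trans (by linarith)))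
          (Df.of_le hK η0 (pS.pv _ hq') (pT.pv _ hq') ((hg _ hq').trans (by linarith)))
          ((hc _ hq').trans (by linarith)) (by linarith) (by linarith)).d).trans
      (int_W hK cS cT pS pT η0 (cz.add cn) hq.1 t0 17)
    have t2 := (h1 q.2 hq.1).2.2.2.2.1
    have s0 : 0 ≤ X + b + g + d := by positivity
    have t3 := pw (show 0 ≤ 2 by norm_num) s0
    have t4 := Df.two_le hK s0 2
    have t5 : 0 ≤ K ^ 2 * d := by positivity
    rw [pow_zero, one_mul] at t3
    have t6 : K ^ 17 * (K ^ 2 * (X + b + g) + (f + d)) ≤ K ^ 17 * (K ^ (2 + 1) * (X + b + g + d)) :=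
      mul_le_mul_of_nonneg_left (by linarith) (by positivity)
    have t7 := pw (show 20 ≤ 25 by norm_num) s0
    have t8 := pw (show 1 ≤ 25 by norm_num) hP
    have t9 : K ^ 17 * (K ^ (2 + 1) * (X + b + g + d)) = K ^ 20 * (X + b + g + d) := by ring
    rw [pow_one] at t8
    exact (abs_le_add_sub _ _).trans ((add_le_add t1 t2).trans (by linarith))
  have ea : a ≤ h * b := ha' _ fun q hq => by
    simpa using sup_v_le (f := fun q => S.r q - T.r q) (g := fun q => S.l q - T.l q)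
      (fun q => (sS q).r_v.sub (sT q).r_v) le_rfl hb (fun y hy => by rw [(h0 y hy).1, sub_self])
      (fun x hx => by rw [(h1 x hx).1, sub_self, abs_zero]) q hq
  have ec : c ≤ K ^ 25 * h * P + h * k := hc' _ fun q hq => by
    have t1 := sup_v_le (f := fun q => S.w q - T.w q) (g := fun q => S.wv q - T.wv q)
      (fun q => (sS q).w_v.sub (sT q).w_v) (by positivity : 0 ≤ K * h * P) hk
      (fun y hy => by rw [(h0 y hy).2.1, sub_self]) (fun x hx => (h1 x hx).2.1) q hq
    have t8 := pw (show 1 ≤ 25 by norm_num) hP0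
    rw [pow_one] at t8
    exact t1.trans (by linarith)
  have ef : f ≤ h * (K ^ 25 * (P + g + d)) := hf' _ fun v hv => by
    have cγ : Continuous fun q => -(S.n q * S.pv q) - -(T.n q * T.pv q) :=
      (cS.n.mul cS.pv).neg.sub (cT.n.mul cT.pv).neg
    have t1 := L1_v_le (V := V) (R := R) (h := h) (f := fun q => S.r q * S.pu q - T.r q * T.pu q)
      (g := fun q => -(S.n q * S.pv q) - -(T.n q * T.pv q)) (by linarith)
      (fun q => (sS q).ze_v.sub (sT q).ze_v) ((cS.r.mul cS.pu).sub (cT.r.mul cT.pu)) cγ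
      (a := K ^ 2 * P) (b := K ^ 2 * (K ^ 2 * g + d))
      (fun s hs => le_trans (intervalIntegral.integral_mono_on (by linarith [hs.1])
        (ii_line cγ _ _ _).abs
        (ii_line (f := fun q => K ^ 2 * (wW S T q * g + |S.n q - T.n q|)) (by fun_prop) _ _ _)
        fun y hy => by
          have hq' : (y, s) ∈ Om V R h := ⟨hs, hy⟩
          have W0 := wW_nonneg S T (y, s)
          exact ((Df.mul hK W0 g0 (le_add_of_nonneg_right (abs_nonneg _))
            (Df.of_le hK g0 (pS.pv _ hq') (pT.pv _ hq') (hg _ hq'))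
            (dfn (le_add_of_nonneg_left (mul_nonneg W0 g0)))).neg.congr
            (by ring) (by ring)).d) (int_W hK cS cT pS pT g0 cn hs (hd s hs) 2))
      (fun y hy => by rw [(h0 y hy).1, (h0 y hy).2.2.2, sub_self])
      (fun x hx => base x hx (h1 x hx).2.2.2.2.2.1) v hv
    refine t1.trans (mul_le_mul_of_nonneg_left ?_ hh)
    have t2 := pw (show 2 ≤ 25 by norm_num) hP
    have t3 := pw (show 4 ≤ 25 by norm_num) g0
    have t4 := pw (show 2 ≤ 25 by norm_num) d0
    have t5 : K ^ 2 * (K ^ 2 * g + d) = K ^ 4 * g + K ^ 2 * d := by ring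
    linarith
  have hp : 2 ≤ K ^ 25 := hK.trans (by simpa using pw (show 1 ≤ 25 by norm_num) zero_le_one)
  have fin := close_strip hp hh hP a0 c0 f0 hs eb ed eg ek ea ec ef
  have k5 : (22 : ℝ) ≤ K ^ 5 := le_trans (by norm_num) (pow_le_pow_left₀ zero_le_two hK 5)
  have fX : X ≤ K ^ 80 * (h * P) := by
    refine fin.trans ?_
    calc 22 * (K ^ 25) ^ 3 * h * P = 22 * (K ^ 75 * (h * P)) := by ring
      _ ≤ K ^ 5 * (K ^ 75 * (h * P)) := mul_le_mul_of_nonneg_right k5 (by positivity)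
      _ = _ := by ring
  have f1 := pw (show 0 ≤ 80 by norm_num) hP0
  rw [pow_zero, one_mul] at f1
  have f2 := Df.two_le hK hP0 80
  have fb : b ≤ K ^ 106 * (h * P) := eb.trans
    ((mul_le_mul_of_nonneg_left (show h * P + X ≤ K ^ (80 + 1) * (h * P) by linarith)
      (by positivity)).trans (le_of_eq (by ring)))
  have f3 := pw (show 80 ≤ 106 by norm_num) hP0
  have f4 := Df.two_le hK hP0 106
  intro q hq
  rw [mul_assoc]
  refine ⟨(ha q hq).trans ((by linarith : a ≤ X).trans (fX.trans (pw (by norm_num) hP0))), ?_⟩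
  rw [mul_sub (S.r (-q.2, q.2))]
  nth_rewrite 2 [(h1 q.2 hq.1).1]
  refine (eth q hq).trans ?_
  calc K ^ 8 * (X + b) ≤ K ^ 8 * (K ^ (106 + 1) * (h * P)) :=
        mul_le_mul_of_nonneg_left (by linarith) (by positivity)
    _ = K ^ 115 * (h * P) := by ring
    _ ≤ _ := pw (by norm_num) hP0

end Vale.Agent.P354W

namespace Vale.Agent.P354E

open Vale.Agent.P354W

theorem bStrip : BStrip := by
  refine ⟨1200, fun e S T V R h P L hS hT hV hR hh hP hL hs he h0 hb h1 v hv => ?_⟩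
  have L0 : 0 ≤ L := by linarith
  have pw : ∀ {i j : ℕ}, i ≤ j → L ^ i ≤ L ^ j := fun hij => pow_le_pow_right₀ (by linarith) hij
  have hK : L ≤ L ^ 10 := by simpa using pw (show 1 ≤ 10 by norm_num)
  have pS := pri_of hS hL he (hb S (by simp))
  have pT := pri_of hT hL he (hb T (by simp))
  have hq : (V, v) ∈ Om V R h := ⟨hv, by simp only; linarith [hv.1], le_rfl⟩
  have k5 : (22 : ℝ) ≤ L ^ 5 := le_trans (by norm_num) (pow_le_pow_left₀ zero_le_two hL 5)
  have key := strip_main hS hT hV hR hh.le hP (hL.trans hK) (he.trans hK)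
    (le_trans (mul_le_mul_of_nonneg_left (by
      calc 22 * ((L ^ 10) ^ 25) ^ 3 ≤ L ^ 5 * ((L ^ 10) ^ 25) ^ 3 := by gcongr
        _ = L ^ 755 := by simp only [← pow_mul, ← pow_add]
        _ ≤ L ^ 1200 := pw (by norm_num)) hh.le) hs) pS pT
    (fun y hy => by
      have h2 := h0 (y, R) ⟨hy.2, le_rfl, by simp only; linarith [hy.1]⟩
      unfold dd at h2
      have a1 := abs_nonneg (S.r (y, R) - T.r (y, R))
      have a2 := abs_nonneg (S.w (y, R) - T.w (y, R))
      have a3 := abs_nonneg (S.p (y, R) - T.p (y, R))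
      have a4 := abs_nonneg (S.l (y, R) - T.l (y, R))
      have a5 := abs_nonneg (S.n (y, R) - T.n (y, R))
      have a6 := abs_nonneg (S.wu (y, R) - T.wu (y, R))
      have a7 := abs_nonneg (S.wv (y, R) - T.wv (y, R))
      have a8 := abs_nonneg (S.pu (y, R) - T.pu (y, R))
      have a9 := abs_nonneg (S.pv (y, R) - T.pv (y, R))
      refine ⟨?_, ?_, ?_, ?_⟩ <;> refine sub_eq_zero.1 (abs_eq_zero.1 ?_) <;> linarith)
    (fun x hx => by
      obtain ⟨b1, b2, b3, b4, b5, b6, b7⟩ := h1 x hx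
      have c1 : L * h * P ≤ L ^ 10 * h * P := by gcongr
      have c2 : L * P ≤ L ^ 10 * P := by gcongr
      exact ⟨b1, b2.trans c1, b3.trans c1, b4.trans c1, b5.trans c2, b6.trans c2, b7.trans c2⟩)
    (V, v) hq
  rw [← pow_mul] at key
  exact ⟨key.1, (pT.pv _ hq).trans (pw (by norm_num)), key.2⟩

end Vale.Agent.P354E
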