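import Vale.Agent.P354W.Op
import Vale.Agent.P354W.Basic

/-!
Global smooth solutions of a diagonal system with a smooth, globally Lipschitz right side.
-/

open Set Filter Topology MeasureTheory intervalIntegral
open scoped ContDiff NNReal

noncomputable section

namespace Vale.Agent.P354W

variable {E F : Type} [NormedAddCommGroup E] [NormedSpace ℝ E] [NormedAddCommGroup F]
  [NormedSpace ℝ F]

/-- `Z = (a, b)` solves `∂ᵥ a = f (a, b)`, `∂ᵤ b = g (a, b)` at `p = (u, v)`, for `φ = (f, g)`. -/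
def SolAt (φ : E × F → E × F) (Z : ℝ × ℝ → E × F) (p : ℝ × ℝ) : Prop :=
  HasDerivAt (fun v => (Z (p.1, v)).1) (φ (Z p)).1 p.2 ∧
    HasDerivAt (fun u => (Z (u, p.2)).2) (φ (Z p)).2 p.1

theorem hasDerivAt_fst' {g : ℝ → E × F} {g' : E × F} {t : ℝ} (h : HasDerivAt g g' t) :
    HasDerivAt (fun s => (g s).1) g'.1 t :=
  (ContinuousLinearMap.fst ℝ E F).hasFDerivAt.comp_hasDerivAt t h

theorem hasDerivAt_snd' {g : ℝ → E × F} {g' : E × F} {t : ℝ} (h : HasDerivAt g g' t) :
    HasDerivAt (fun s => (g s).2) g'.2 t :=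
  (ContinuousLinearMap.snd ℝ E F).hasFDerivAt.comp_hasDerivAt t h

/-- Restriction of a rescaled solution to a smaller square. -/
def sub (a b : ℝ) : C(Sq, Sq) :=
  ⟨fun k => (pr (a + (1 - a - b) * k.1), pr (b + (1 - a - b) * k.2)), by fun_prop⟩

theorem gG_sub {φ : C(E × F, E × F)} {z₀ : C(ℝ, E × F)} {p : ℝ × ℝ} {W : C(Sq, E × F)}
    (hW : gG φ z₀ (p, W) = W) {a b : ℝ} (ha : 0 ≤ a) (hb : 0 ≤ b) (hab : a + b ≤ 1) :
    gG φ z₀ ((p.1 - (p.1 + p.2) * a, p.2 - (p.1 + p.2) * b), W.comp (sub a b)) =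
      W.comp (sub a b) := by
  ext1 k
  have hc : 0 ≤ 1 - a - b := by linarith
  have k1 := k.1.2
  have k2 := k.2.2
  have e1 : (pr (a + (1 - a - b) * k.1) : ℝ) = a + (1 - a - b) * k.1 :=
    pr_coe (by have := k1.1; positivity) (by nlinarith [k1.2])
  have e2 : (pr (b + (1 - a - b) * k.2) : ℝ) = b + (1 - a - b) * k.2 :=
    pr_coe (by have := k2.1; positivity) (by nlinarith [k2.2])
  have hk : W (sub a b k) = gG φ z₀ (p, W) (sub a b k) := by rw [hW]
  rw [ContinuousMap.comp_apply, hk, gG_apply, gG_apply]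
  have s1 : ((sub a b k).1 : ℝ) = a + (1 - a - b) * k.1 := e1
  have s2 : ((sub a b k).2 : ℝ) = b + (1 - a - b) * k.2 := e2
  rw [s1, s2]
  have hh : p.1 - (p.1 + p.2) * a + (p.2 - (p.1 + p.2) * b) = (p.1 + p.2) * (1 - a - b) := by ring
  simp only [hh]
  have i1 : ∫ t in (k.2 : ℝ)..(1 - k.1), φ (W.comp (sub a b) (k.1, pr t)) =
      ∫ t in (k.2 : ℝ)..(1 - k.1),
        (fun s => φ (W ((sub a b k).1, pr s))) (b + (1 - a - b) * t) := by
    refine integral_congr fun t ht => ?_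
    have h01 := mem01 k.2.2 (one_sub_mem01 k.1) ht
    simp only [ContinuousMap.comp_apply, sub, ContinuousMap.coe_mk, pr_coe h01.1 h01.2]
  have i2 : ∫ t in (k.1 : ℝ)..(1 - k.2), φ (W.comp (sub a b) (pr t, k.2)) =
      ∫ t in (k.1 : ℝ)..(1 - k.2),
        (fun s => φ (W (pr s, (sub a b k).2))) (a + (1 - a - b) * t) := by
    refine integral_congr fun t ht => ?_
    have h01 := mem01 k.1.2 (one_sub_mem01 k.2) ht
    simp only [ContinuousMap.comp_apply, sub, ContinuousMap.coe_mk, pr_coe h01.1 h01.2]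
  rw [i1, i2, mul_smul, mul_smul,
    smul_integral_comp_add_mul (fun s => φ (W ((sub a b k).1, pr s))),
    smul_integral_comp_add_mul (fun s => φ (W (pr s, (sub a b k).2)))]
  congr 3
  · congr 1; ring
  · congr 2; ring
  · congr 1; ring
  · congr 2; ring

variable [CompleteSpace E] [CompleteSpace F]

/-- Global existence for a smooth, globally Lipschitz right side. -/
theorem exists_global {φ : E × F → E × F} {z₀ : ℝ → E × F} (hφ : ContDiff ℝ ∞ φ)
    (hz : ContDiff ℝ ∞ z₀) {L : ℝ≥0} (hL : LipschitzWith L φ) :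
    ∃ Z : ℝ × ℝ → E × F, ContDiff ℝ ∞ Z ∧ (∀ x, Z (-x, x) = z₀ x) ∧ ∀ p, SolAt φ Z p := by
  obtain ⟨S, hS, hfix, huniq⟩ := exists_family (φ := ⟨φ, hφ.continuous⟩)
    (z₀ := ⟨z₀, hz.continuous⟩) hφ hz hL
  have hZ : ContDiff ℝ ∞ fun p => S p (0, 0) :=
    (ContinuousMap.evalCLM (M := E × F) ℝ ((0, 0) : Sq)).contDiff.comp hS
  have hcons : ∀ (p : ℝ × ℝ) (a b : ℝ), 0 ≤ a → 0 ≤ b → a + b ≤ 1 →
      S p (pr a, pr b) = S (p.1 - (p.1 + p.2) * a, p.2 - (p.1 + p.2) * b) (0, 0) := by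
    intro p a b ha hb hab
    rw [← huniq _ _ (gG_sub (hfix p) ha hb hab)]
    simp [sub]
  have hp0 : pr 0 = 0 := pr_val 0
  have hint : ∀ p : ℝ × ℝ, S p (0, 0) =
      ((z₀ (-p.1) + ∫ v in (-p.1)..p.2, φ (S (p.1, v) (0, 0))).1,
        (z₀ p.2 + ∫ u in (-p.2)..p.1, φ (S (u, p.2) (0, 0))).2) := by
    intro p
    conv_lhs => rw [← hfix p, gG_apply]
    have i1 : ∫ t in (0 : ℝ)..1, φ (S p (0, pr t)) =
        ∫ t in (0 : ℝ)..1, (fun v => φ (S (p.1, v) (0, 0))) (p.2 - (p.1 + p.2) * t) := by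
      refine integral_congr fun t ht => ?_
      rw [uIcc_of_le zero_le_one] at ht
      have := hcons p 0 t le_rfl ht.1 (by linarith [ht.2])
      rw [hp0] at this
      simp [this]
    have i2 : ∫ t in (0 : ℝ)..1, φ (S p (pr t, 0)) =
        ∫ t in (0 : ℝ)..1, (fun u => φ (S (u, p.2) (0, 0))) (p.1 - (p.1 + p.2) * t) := by
      refine integral_congr fun t ht => ?_
      rw [uIcc_of_le zero_le_one] at ht
      have := hcons p t 0 ht.1 le_rfl (by linarith [ht.2])
      rw [hp0] at this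
      simp [this]
    simp only [ContinuousMap.coe_mk, Set.Icc.coe_zero, mul_zero, add_zero, sub_zero]
    rw [i1, i2, smul_integral_comp_sub_mul (fun v => φ (S (p.1, v) (0, 0))),
      smul_integral_comp_sub_mul (fun u => φ (S (u, p.2) (0, 0)))]
    simp only [mul_zero, sub_zero, mul_one]
    rw [show p.2 - (p.1 + p.2) = -p.1 by ring, show p.1 - (p.1 + p.2) = -p.2 by ring]
  refine ⟨fun p => S p (0, 0), hZ, fun x => ?_, fun p => ⟨?_, ?_⟩⟩
  · simp only
    rw [hint]
    simp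
  · have hc : Continuous fun v => φ (S (p.1, v) (0, 0)) :=
      hφ.continuous.comp (hZ.continuous.comp (Continuous.prodMk_right p.1))
    have h1 := hasDerivAt_fst' (((hc.integral_hasStrictDerivAt (-p.1) p.2).hasDerivAt).const_add
      (z₀ (-p.1)))
    refine h1.congr_of_eventuallyEq (Eventually.of_forall fun v => ?_)
    simp only
    rw [hint]
  · have hc : Continuous fun u => φ (S (u, p.2) (0, 0)) :=
      hφ.continuous.comp (hZ.continuous.comp (Continuous.prodMk_left p.2))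
    have h1 := hasDerivAt_snd' (((hc.integral_hasStrictDerivAt (-p.2) p.1).hasDerivAt).const_add
      (z₀ p.2))
    refine h1.congr_of_eventuallyEq (Eventually.of_forall fun u => ?_)
    simp only
    rw [hint]

end Vale.Agent.P354W
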