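import Vale.Agent.P354W.Exist

/-!
Uniqueness, the maximal smooth solution with its extension property, and Cauchy stability
for the diagonal system `∂ᵥ a = f (a, b)`, `∂ᵤ b = g (a, b)` with data on `u + v = 0`.
-/

open Set Filter Topology
open scoped ContDiff NNReal Manifold

noncomputable section

namespace Vale.Agent.P354W

variable {E F : Type} [NormedAddCommGroup E] [NormedSpace ℝ E] [NormedAddCommGroup F]
  [NormedSpace ℝ F]

theorem SolAt.congr {φ : E × F → E × F} {Z Z' : ℝ × ℝ → E × F} {p : ℝ × ℝ}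
    (h : SolAt φ Z p) (e : Z' =ᶠ[𝓝 p] Z) : SolAt φ Z' p := by
  have e0 : Z' p = Z p := e.self_of_nhds
  have t1 : Tendsto (fun v => (p.1, v)) (𝓝 p.2) (𝓝 p) :=
    (Continuous.prodMk_right p.1).tendsto' _ _ rfl
  have t2 : Tendsto (fun u => (u, p.2)) (𝓝 p.1) (𝓝 p) :=
    (Continuous.prodMk_left p.2).tendsto' _ _ rfl
  refine ⟨?_, ?_⟩
  · rw [e0]
    exact h.1.congr_of_eventuallyEq ((t1.eventually e).mono fun v hv => congrArg Prod.fst hv)
  · rw [e0]
    exact h.2.congr_of_eventuallyEq ((t2.eventually e).mono fun v hv => congrArg Prod.snd hv)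

theorem SolAt.congr_rhs {φ ψ : E × F → E × F} {Z : ℝ × ℝ → E × F} {p : ℝ × ℝ}
    (h : SolAt φ Z p) (e : ψ (Z p) = φ (Z p)) : SolAt ψ Z p := by
  unfold SolAt
  rw [e]
  exact h

/-- Comparison of two solutions with values in a set where the right side is Lipschitz. -/
theorem sub_le_tri {φ : E × F → E × F} {K : Set (E × F)} {L : ℝ≥0} (hL : LipschitzOnWith L φ K)
    {Z Z' : ℝ × ℝ → E × F} {p : ℝ × ℝ} {ε : ℝ}
    (hc : ContinuousOn Z (Tri p)) (hc' : ContinuousOn Z' (Tri p))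
    (hK : ∀ q ∈ Tri p, Z q ∈ K) (hK' : ∀ q ∈ Tri p, Z' q ∈ K)
    (hs : ∀ q ∈ Tri p, SolAt φ Z q) (hs' : ∀ q ∈ Tri p, SolAt φ Z' q)
    (base : ∀ x, (-x, x) ∈ Tri p → ‖Z' (-x, x) - Z (-x, x)‖ ≤ ε) :
    ∀ q ∈ Tri p, ‖Z' q - Z q‖ ≤ 2 * ε * Real.cosh ((2 * L + 1) * (q.1 + q.2)) := by
  have := gronwall_tri (d := fun q => Z' q - Z q) (f' := fun q => (φ (Z' q)).1 - (φ (Z q)).1)
    (g' := fun q => (φ (Z' q)).2 - (φ (Z q)).2) (p := p) (L := L) (M := 0) (ε := ε) L.2 le_rfl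
    (hc'.sub hc) (fun q hq => (hs' q hq).1.sub (hs q hq).1)
    (fun q hq => (hs' q hq).2.sub (hs q hq).2)
    (fun q hq => by
      rw [add_zero, ← Prod.fst_sub]
      exact (norm_fst_le _).trans (hL.norm_sub_le (hK' q hq) (hK q hq)))
    (fun q hq => by
      rw [add_zero, ← Prod.snd_sub]
      exact (norm_snd_le _).trans (hL.norm_sub_le (hK' q hq) (hK q hq)))
    base
  simpa only [add_zero] using this

theorem exists_lip {φ : E × F → E × F} {U K : Set (E × F)} (hU : IsOpen U)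
    (hφ : ContDiffOn ℝ ∞ φ U) (hK : IsCompact K) (hKU : K ⊆ U) :
    ∃ L, LipschitzOnWith L φ K := by
  refine LocallyLipschitzOn.exists_lipschitzOnWith_of_compact hK fun x hx => ?_
  obtain ⟨L, t, ht, h⟩ := ((hφ.contDiffAt (hU.mem_nhds (hKU hx))).of_le
    (m := 1) (by exact_mod_cast le_top)).exists_lipschitzOnWith
  exact ⟨L, t, mem_nhdsWithin_of_mem_nhds ht, h⟩

/-- Uniqueness on a characteristic triangle. -/
theorem unique_tri {φ : E × F → E × F} {U : Set (E × F)} (hU : IsOpen U)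
    (hφ : ContDiffOn ℝ ∞ φ U) {Z Z' : ℝ × ℝ → E × F} {p : ℝ × ℝ}
    (hc : ContinuousOn Z (Tri p)) (hc' : ContinuousOn Z' (Tri p))
    (hK : ∀ q ∈ Tri p, Z q ∈ U) (hK' : ∀ q ∈ Tri p, Z' q ∈ U)
    (hs : ∀ q ∈ Tri p, SolAt φ Z q) (hs' : ∀ q ∈ Tri p, SolAt φ Z' q)
    (base : ∀ x, (-x, x) ∈ Tri p → Z' (-x, x) = Z (-x, x)) : ∀ q ∈ Tri p, Z' q = Z q := by
  obtain ⟨L, hL⟩ := exists_lip hU hφ
    (((isCompact_tri p).image_of_continuousOn hc).union
      ((isCompact_tri p).image_of_continuousOn hc'))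
    (union_subset (image_subset_iff.2 hK) (image_subset_iff.2 hK'))
  intro q hq
  have := sub_le_tri hL (ε := 0) hc hc' (fun q hq => Or.inl (mem_image_of_mem _ hq))
    (fun q hq => Or.inr (mem_image_of_mem _ hq)) hs hs'
    (fun x hx => by rw [base x hx, sub_self, norm_zero]) q hq
  rw [mul_zero, zero_mul] at this
  exact sub_eq_zero.1 (norm_le_zero_iff.1 this)

/-- `Z` is the maximal smooth solution on `D` with data `z₀` and values in `U`. -/
structure MaxSol (φ : E × F → E × F) (U : Set (E × F)) (z₀ : ℝ → E × F) (D : Set (ℝ × ℝ))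
    (Z : ℝ × ℝ → E × F) : Prop where
  isOpen : IsOpen D
  base_mem : ∀ x, (-x, x) ∈ D
  data : ∀ x, Z (-x, x) = z₀ x
  smooth : ContDiffOn ℝ ∞ Z D
  mem : ∀ p ∈ D, Z p ∈ U
  sol : ∀ p ∈ D, SolAt φ Z p
  tri : ∀ p ∈ D, Tri p ⊆ D
  ext : ∀ K, IsCompact K → K ⊆ U → ∀ p, (∀ q ∈ D, q ∈ Tri p → Z q ∈ K) → p ∈ D

/-- What the stability proof uses of a solution, near the triangle of `p`. -/
structure LocSol (φ : E × F → E × F) (U : Set (E × F)) (p : ℝ × ℝ) (D : Set (ℝ × ℝ))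
    (Z : ℝ × ℝ → E × F) : Prop where
  isOpen : IsOpen D
  cont : ContinuousOn Z D
  sol : ∀ q ∈ D, SolAt φ Z q
  tri : ∀ q ∈ Tri p, q ∈ D → Tri q ⊆ D
  ext : ∀ K, IsCompact K → K ⊆ U → ∀ q ∈ Tri p, (∀ s ∈ D, s ∈ Tri q → Z s ∈ K) → q ∈ D

variable [FiniteDimensional ℝ E] [FiniteDimensional ℝ F]

theorem exists_cutoff {φ : E × F → E × F} {U K : Set (E × F)} (hU : IsOpen U)
    (hφ : ContDiffOn ℝ ∞ φ U) (hK : IsCompact K) (hKU : K ⊆ U) :
    ∃ (ψ : E × F → E × F) (L : ℝ≥0) (O : Set (E × F)), ContDiff ℝ ∞ ψ ∧ LipschitzWith L ψ ∧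
      IsOpen O ∧ K ⊆ O ∧ O ⊆ U ∧ ∀ y ∈ O, φ y = ψ y := by
  obtain ⟨K', hK', h1, h2⟩ := exists_compact_between hK hU hKU
  obtain ⟨χ, hχ1, hχ0, -⟩ := exists_contMDiffMap_one_nhds_of_subset_interior
    (n := (⊤ : ℕ∞)) 𝓘(ℝ, E × F) hK.isClosed h1
  have hχ : ContDiff ℝ ∞ χ := χ.contMDiff.contDiff
  have hs : ContDiff ℝ ∞ fun y => χ y • φ y := by
    rw [contDiff_iff_contDiffAt]
    intro y
    by_cases hy : y ∈ U
    · exact hχ.contDiffAt.smul (hφ.contDiffAt (hU.mem_nhds hy))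
    · refine (contDiffAt_const (c := 0)).congr_of_eventuallyEq ?_
      filter_upwards [hK'.isClosed.isOpen_compl.mem_nhds fun h => hy (h2 h)] with x hx
      rw [hχ0 x hx, zero_smul]
  have hcs : HasCompactSupport fun y => χ y • φ y :=
    HasCompactSupport.intro hK' fun x hx => by rw [hχ0 x hx, zero_smul]
  obtain ⟨L, hL⟩ := hs.lipschitzWith_of_hasCompactSupport hcs (by simp)
  obtain ⟨O, hO, hKO, hO1⟩ := mem_nhdsSet_iff_exists.1 hχ1
  refine ⟨_, L, O ∩ U, hs, hL, hO.inter hU, subset_inter hKO hKU, inter_subset_right,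
    fun y hy => ?_⟩
  have : χ y = 1 := hO1 hy.1
  rw [this, one_smul]

/-- Existence of the maximal smooth solution. -/
theorem exists_maxSol {φ : E × F → E × F} {U : Set (E × F)} (hU : IsOpen U)
    (hφ : ContDiffOn ℝ ∞ φ U) {z₀ : ℝ → E × F} (hz : ContDiff ℝ ∞ z₀) (hzU : ∀ x, z₀ x ∈ U) :
    ∃ D Z, MaxSol φ U z₀ D Z := by
  classical
  have := FiniteDimensional.complete ℝ E
  have := FiniteDimensional.complete ℝ F
  let Good : (ℝ × ℝ → E × F) → Set (ℝ × ℝ) → Prop := fun Y O =>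
    ContDiff ℝ ∞ Y ∧ (∀ x, Y (-x, x) = z₀ x) ∧ IsOpen O ∧ ∀ q ∈ O, Y q ∈ U ∧ SolAt φ Y q
  let D : Set (ℝ × ℝ) := {p | ∃ Y O, Good Y O ∧ Tri p ⊆ O}
  let Z : ℝ × ℝ → E × F := fun p => if h : p ∈ D then h.choose p else 0
  have agree : ∀ Y O p, Good Y O → Tri p ⊆ O → Z p = Y p := by
    intro Y O p hY hp
    have hD : p ∈ D := ⟨Y, O, hY, hp⟩
    obtain ⟨O', hY', hp'⟩ := hD.choose_spec
    simp only [Z, dif_pos hD]
    exact unique_tri hU hφ hY.1.continuous.continuousOn hY'.1.continuous.continuousOn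
      (fun q hq => (hY.2.2.2 q (hp hq)).1) (fun q hq => (hY'.2.2.2 q (hp' hq)).1)
      (fun q hq => (hY.2.2.2 q (hp hq)).2) (fun q hq => (hY'.2.2.2 q (hp' hq)).2)
      (fun x _ => by rw [hY.2.1, hY'.2.1]) p (self_mem_tri p)
  have loc : ∀ Y O p, Good Y O → Tri p ⊆ O → Z =ᶠ[𝓝 p] Y := by
    intro Y O p hY hp
    filter_upwards [(isOpen_tri_subset hY.2.2.1).mem_nhds hp] with q hq
    exact agree Y O q hY hq
  have cut : ∀ K, IsCompact K → K ⊆ U → ∃ Y O, Good Y O ∧ ∀ q, Y q ∈ K → q ∈ O := by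
    intro K hK hKU
    obtain ⟨ψ, L, O, hψ, hL, hO, hKO, hOU, he⟩ := exists_cutoff hU hφ hK hKU
    obtain ⟨Y, hY, hd, hs⟩ := exists_global hψ hz hL
    exact ⟨Y, Y ⁻¹' O, ⟨hY, hd, hO.preimage hY.continuous,
      fun q hq => ⟨hOU hq, (hs q).congr_rhs (he _ hq)⟩⟩, fun q hq => hKO hq⟩
  have hbase : ∀ x, (-x, x) ∈ D := by
    intro x
    obtain ⟨Y, O, hY, hK⟩ := cut {z₀ x} isCompact_singleton (singleton_subset_iff.2 (hzU x))
    refine ⟨Y, O, hY, ?_⟩
    rw [tri_base, singleton_subset_iff]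
    exact hK _ (hY.2.1 x)
  have hdata : ∀ x, Z (-x, x) = z₀ x := by
    intro x
    obtain ⟨Y, O, hY, hp⟩ := hbase x
    rw [agree Y O _ hY hp, hY.2.1]
  refine ⟨D, Z, ⟨?_, hbase, hdata, ?_, ?_, ?_, ?_, ?_⟩⟩
  · rw [isOpen_iff_mem_nhds]
    rintro p ⟨Y, O, hY, hp⟩
    filter_upwards [(isOpen_tri_subset hY.2.2.1).mem_nhds hp] with q hq
    exact ⟨Y, O, hY, hq⟩
  · rintro p ⟨Y, O, hY, hp⟩
    exact (hY.1.contDiffAt.congr_of_eventuallyEq (loc Y O p hY hp)).contDiffWithinAt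
  · rintro p ⟨Y, O, hY, hp⟩
    rw [agree Y O p hY hp]
    exact (hY.2.2.2 p (hp (self_mem_tri p))).1
  · rintro p ⟨Y, O, hY, hp⟩
    exact (hY.2.2.2 p (hp (self_mem_tri p))).2.congr (loc Y O p hY hp)
  · rintro p ⟨Y, O, hY, hp⟩ q hq
    exact ⟨Y, O, hY, (tri_subset hq).trans hp⟩
  · intro K hK hKU p hp
    obtain ⟨Y, O, hY, hKO⟩ := cut K hK hKU
    refine ⟨Y, O, hY, tri_induction
      (fun q _ hq => mem_nhdsWithin_of_mem_nhds (hY.2.2.1.mem_nhds hq)) fun q hq h => ?_⟩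
    apply hKO
    by_cases h0 : q.1 + q.2 = 0
    · have e : q = (-q.2, q.2) := Prod.ext (by simp only; linarith) rfl
      rw [e, hY.2.1, ← hdata]
      exact hp _ (hbase _) (e ▸ hq)
    · refine mem_of_punctured h0 hY.1.continuous.continuousWithinAt hK.isClosed
        fun r hr hne => ?_
      have hrO : Tri r ⊆ O := fun s hs => h s (tri_subset hr hs) fun e => by
        have h1 := abs_le_of_mem_tri hs
        have h2 := abs_lt_of_mem_tri hr hne
        rw [e] at h1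
        linarith
      rw [← agree Y O r hY hrO]
      exact hp r ⟨Y, O, hY, hrO⟩ (tri_subset hq hr)

omit [FiniteDimensional ℝ E] [FiniteDimensional ℝ F] in
/-- Any solution on a triangle with the same data is part of the maximal solution. -/
theorem MaxSol.maximal {φ : E × F → E × F} {U : Set (E × F)} (hU : IsOpen U)
    (hφ : ContDiffOn ℝ ∞ φ U) {z₀ : ℝ → E × F} {D : Set (ℝ × ℝ)} {Z : ℝ × ℝ → E × F}
    (h : MaxSol φ U z₀ D Z) {Y : ℝ × ℝ → E × F} {p : ℝ × ℝ} (hc : ContinuousOn Y (Tri p))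
    (hK : ∀ q ∈ Tri p, Y q ∈ U) (hs : ∀ q ∈ Tri p, SolAt φ Y q)
    (base : ∀ x, (-x, x) ∈ Tri p → Y (-x, x) = z₀ x) : p ∈ D ∧ ∀ q ∈ Tri p, Z q = Y q := by
  have key : ∀ q ∈ D, q ∈ Tri p → Z q = Y q := fun q hq hqp =>
    unique_tri hU hφ (hc.mono (tri_subset hqp)) (h.smooth.continuousOn.mono (h.tri q hq))
      (fun r hr => hK r (tri_subset hqp hr)) (fun r hr => h.mem r (h.tri q hq hr))
      (fun r hr => hs r (tri_subset hqp hr)) (fun r hr => h.sol r (h.tri q hq hr))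
      (fun x hx => by rw [h.data, base x (tri_subset hqp hx)]) q (self_mem_tri q)
  have hp : p ∈ D := h.ext _ ((isCompact_tri p).image_of_continuousOn hc)
    (image_subset_iff.2 hK) p fun q hq hqp => by
      rw [key q hq hqp]
      exact mem_image_of_mem _ hqp
  exact ⟨hp, fun q hq => key q (h.tri p hp hq) hq⟩

/-- Cauchy stability, with constants depending only on a compact set of values and on the height
of the triangle. -/
theorem stability' {φ : E × F → E × F} {U K : Set (E × F)} (hU : IsOpen U)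
    (hφ : ContDiffOn ℝ ∞ φ U) (hK : IsCompact K) (hKU : K ⊆ U) (H : ℝ) :
    ∃ δ > 0, ∃ C > 0, ∀ (Y : ℝ × ℝ → E × F) (p : ℝ × ℝ), |p.1 + p.2| ≤ H →
      ContinuousOn Y (Tri p) → (∀ q ∈ Tri p, Y q ∈ K) → (∀ q ∈ Tri p, SolAt φ Y q) →
      ∀ D Z, LocSol φ U p D Z → ∀ ε ≤ δ,
        (∀ x, (-x, x) ∈ Tri p → ‖Z (-x, x) - Y (-x, x)‖ ≤ ε) →
        p ∈ D ∧ ∀ q ∈ Tri p, ‖Z q - Y q‖ ≤ C * ε := by
  have := FiniteDimensional.proper_real (E × F)
  obtain ⟨r, hr, hrU⟩ := hK.exists_cthickening_subset_open hU hKU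
  have hK' : IsCompact (Metric.cthickening r K) := hK.cthickening
  obtain ⟨L, hL⟩ := exists_lip hU hφ hK' hrU
  set C := 2 * Real.cosh ((2 * L + 1) * H) with hC
  have hC1 : 2 ≤ C := by
    have := Real.one_le_cosh ((2 * L + 1) * H)
    linarith
  have hC0 : 0 < C := by linarith
  refine ⟨r / (2 * C), by positivity, C, hC0, ?_⟩
  intro Y p hH hc hYK hs D Z h ε hε base
  have hε0 : 0 ≤ ε := by
    have : (-p.2, p.2) ∈ Tri p := mem_tri_u left_mem_uIcc
    exact (norm_nonneg _).trans (base _ this)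
  have hCε : C * ε ≤ r / 2 := by
    have := mul_le_mul_of_nonneg_left hε hC0.le
    rwa [show C * (r / (2 * C)) = r / 2 by field_simp] at this
  have hεr : ε ≤ r / 2 := by nlinarith
  have est : ∀ q ∈ Tri p, q ∈ D → (∀ s ∈ Tri q, ‖Z s - Y s‖ ≤ r) → ‖Z q - Y q‖ ≤ C * ε := by
    intro q hq hqD hb
    have := sub_le_tri hL (ε := ε) (hc.mono (tri_subset hq))
      (h.cont.mono (h.tri q hq hqD))
      (fun s hs' => Metric.self_subset_cthickening _ (hYK s (tri_subset hq hs')))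
      (fun s hs' => Metric.mem_cthickening_of_dist_le _ (Y s) _ _ (hYK s (tri_subset hq hs'))
        (by rw [dist_eq_norm]; exact hb s hs'))
      (fun s hs' => hs s (tri_subset hq hs')) (fun s hs' => h.sol s (h.tri q hq hqD hs'))
      (fun x hx => base x (tri_subset hq hx)) q (self_mem_tri q)
    refine this.trans ?_
    have h1 : Real.cosh ((2 * L + 1) * (q.1 + q.2)) ≤ Real.cosh ((2 * L + 1) * H) := by
      rw [Real.cosh_le_cosh, abs_mul, abs_mul]
      exact mul_le_mul_of_nonneg_left (((abs_le_of_mem_tri hq).trans hH).trans (le_abs_self H))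
        (abs_nonneg _)
    rw [hC]
    nlinarith
  have lim : ∀ q ∈ Tri p, q ∈ D → (∀ s ∈ Tri q, s ≠ q → ‖Z s - Y s‖ ≤ r) →
      ∀ s ∈ Tri q, ‖Z s - Y s‖ ≤ r := by
    intro q hq hqD hb s hs'
    by_cases e : s = q
    · subst e
      by_cases h0 : s.1 + s.2 = 0
      · have e : s = (-s.2, s.2) := Prod.ext (by simp only; linarith) rfl
        rw [e]
        exact (base _ (e ▸ hq)).trans (by linarith)
      · exact mem_of_punctured (f := fun s => ‖Z s - Y s‖) (C := Iic r) h0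
          (((h.cont.mono (h.tri s hq hqD)).sub (hc.mono (tri_subset hq))).norm s
            (self_mem_tri s)) isClosed_Iic hb
    · exact hb s hs' e
  have main : Tri p ⊆ {q | q ∈ D ∧ ‖Z q - Y q‖ < r} := by
    refine tri_induction (fun q hq hO => ?_) fun q hq hO => ?_
    · have h1 : ContinuousWithinAt (fun s => ‖Z s - Y s‖) (Tri p) q :=
        ((h.cont.continuousAt
          (h.isOpen.mem_nhds hO.1)).continuousWithinAt.sub (hc q hq)).norm
      filter_upwards [mem_nhdsWithin_of_mem_nhds (h.isOpen.mem_nhds hO.1),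
        h1.eventually (gt_mem_nhds hO.2)] with s h2 h3
      exact ⟨h2, h3⟩
    · have hqD : q ∈ D := h.ext _ hK' hrU q hq fun s hsD hsq => by
        refine Metric.mem_cthickening_of_dist_le _ (Y s) _ _ (hYK s (tri_subset hq hsq)) ?_
        rw [dist_eq_norm]
        by_cases e : s = q
        · subst e
          exact lim s hq hsD (fun t ht hne => (hO t ht hne).2.le) s hsq
        · exact (hO s hsq e).2.le
      exact ⟨hqD, (est q hq hqD (lim q hq hqD fun t ht hne => (hO t ht hne).2.le)).trans_lt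
        (by linarith)⟩
  exact ⟨(main (self_mem_tri p)).1, fun q hq => est q hq (main hq).1
    fun s hs' => (main (tri_subset hq hs')).2.le⟩

/-- Cauchy stability for maximal solutions. -/
theorem stability {φ : E × F → E × F} {U K : Set (E × F)} (hU : IsOpen U)
    (hφ : ContDiffOn ℝ ∞ φ U) (hK : IsCompact K) (hKU : K ⊆ U) (H : ℝ) :
    ∃ δ > 0, ∃ C > 0, ∀ (Y : ℝ × ℝ → E × F) (p : ℝ × ℝ), |p.1 + p.2| ≤ H →
      ContinuousOn Y (Tri p) → (∀ q ∈ Tri p, Y q ∈ K) → (∀ q ∈ Tri p, SolAt φ Y q) →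
      ∀ z₀ D Z, MaxSol φ U z₀ D Z → ∀ ε ≤ δ,
        (∀ x, (-x, x) ∈ Tri p → ‖z₀ x - Y (-x, x)‖ ≤ ε) →
        p ∈ D ∧ ∀ q ∈ Tri p, ‖Z q - Y q‖ ≤ C * ε := by
  obtain ⟨δ, hδ, C, hC, h⟩ := stability' hU hφ hK hKU H
  refine ⟨δ, hδ, C, hC, fun Y p hH hc hYK hs z₀ D Z hm ε hε base => ?_⟩
  exact h Y p hH hc hYK hs D Z ⟨hm.isOpen, hm.smooth.continuousOn, hm.sol,
    fun q _ hq => hm.tri q hq, fun K hK hKU q _ => hm.ext K hK hKU q⟩ ε hε
    fun x hx => by rw [hm.data]; exact base x hx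

end Vale.Agent.P354W
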