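import Mathlib

/-!
Composition operators on spaces of continuous maps are smooth, and fixed points of smooth
families of contractions depend smoothly on the parameter.
-/

open Set Filter Topology
open scoped ContDiff

noncomputable section

namespace Vale.Agent.P354W

section Nem

variable {K : Type} [TopologicalSpace K] [CompactSpace K]
variable {X : Type} [NormedAddCommGroup X] [NormedSpace ℝ X]

/-- Pointwise application of a continuous family of linear maps. -/
def appL (K : Type) [TopologicalSpace K] [CompactSpace K]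
    (X : Type) [NormedAddCommGroup X] [NormedSpace ℝ X]
    (Y : Type) [NormedAddCommGroup Y] [NormedSpace ℝ Y] :
    C(K, X →L[ℝ] Y) →L[ℝ] C(K, X) →L[ℝ] C(K, Y) :=
  LinearMap.mkContinuous₂
    (LinearMap.mk₂ ℝ
      (fun (A : C(K, X →L[ℝ] Y)) (V : C(K, X)) =>
        (⟨fun k => A k (V k), A.continuous.clm_apply V.continuous⟩ : C(K, Y)))
      (fun A B V => by ext k; simp)
      (fun c A V => by ext k; simp)
      (fun A V W => by ext k; simp)
      (fun c A V => by ext k; simp))
    1
    (fun A V => by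
      rw [one_mul]
      refine (ContinuousMap.norm_le _ (by positivity)).2 fun k => ?_
      exact ((A k).le_opNorm (V k)).trans
        (mul_le_mul (A.norm_coe_le_norm k) (V.norm_coe_le_norm k) (norm_nonneg _)
          (norm_nonneg A)))

@[simp] theorem appL_apply {Y : Type} [NormedAddCommGroup Y] [NormedSpace ℝ Y]
    (A : C(K, X →L[ℝ] Y)) (V : C(K, X)) (k : K) : appL K X Y A V k = A k (V k) := rfl

theorem hasFDerivAt_nem {Y : Type} [NormedAddCommGroup Y] [NormedSpace ℝ Y]
    (φ : C(X, Y)) (φ' : C(X, X →L[ℝ] Y)) (h : ∀ x, HasFDerivAt φ (φ' x) x) (W : C(K, X)) :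
    HasFDerivAt (fun V : C(K, X) => φ.comp V) (appL K X Y (φ'.comp W)) W := by
  rw [hasFDerivAt_iff_isLittleO, Asymptotics.isLittleO_iff]
  intro c hc
  have hS : IsCompact (range W) := isCompact_range W.continuous
  have hu := hS.uniformContinuousAt_of_continuousAt φ' (fun a _ => φ'.continuous.continuousAt)
    (Metric.dist_mem_uniformity hc)
  obtain ⟨δ, hδ, hd⟩ := Metric.mem_uniformity_dist.1 hu
  filter_upwards [Metric.ball_mem_nhds W hδ] with V hV
  refine (ContinuousMap.norm_le _ (by positivity)).2 fun k => ?_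
  have hk : V k ∈ Metric.ball (W k) δ :=
    lt_of_le_of_lt (ContinuousMap.dist_apply_le_dist k) hV
  have key := (convex_ball (W k) δ).norm_image_sub_le_of_norm_hasFDerivWithin_le'
    (f := φ) (f' := φ') (φ := φ' (W k)) (C := c)
    (fun x _ => (h x).hasFDerivWithinAt)
    (fun x hx => by
      have : dist (φ' (W k)) (φ' x) < c :=
        hd (a := W k) (b := x) (by rw [dist_comm]; exact hx) (mem_range_self k)
      rw [dist_comm, dist_eq_norm] at this
      exact this.le)
    (Metric.mem_ball_self hδ) hk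
  refine le_trans (by simpa using key) (mul_le_mul_of_nonneg_left ?_ hc.le)
  exact (V - W).norm_coe_le_norm k

theorem contDiff_nem_nat (n : ℕ) : ∀ {Y : Type} [NormedAddCommGroup Y] [NormedSpace ℝ Y]
    (φ : C(X, Y)), ContDiff ℝ n φ → ContDiff ℝ n (fun V : C(K, X) => φ.comp V) := by
  induction n with
  | zero =>
    intro Y _ _ φ _
    exact contDiff_zero.2 (ContinuousMap.continuous_postcomp φ)
  | succ n ih =>
    intro Y _ _ φ hφ
    rw [Nat.cast_succ] at hφ ⊢
    obtain ⟨φ', h1, h2⟩ := contDiff_succ_iff_hasFDerivAt.1 hφ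
    refine contDiff_succ_iff_hasFDerivAt.2
      ⟨fun W => appL K X Y ((⟨φ', h1.continuous⟩ : C(X, X →L[ℝ] Y)).comp W), ?_, fun W => ?_⟩
    · exact (appL K X Y).contDiff.comp (ih ⟨φ', h1.continuous⟩ h1)
    · exact hasFDerivAt_nem φ ⟨φ', h1.continuous⟩ h2 W

/-- Composition with a smooth map is smooth on continuous maps from a compact space. -/
theorem contDiff_nem {Y : Type} [NormedAddCommGroup Y] [NormedSpace ℝ Y]
    (φ : C(X, Y)) (hφ : ContDiff ℝ ∞ φ) : ContDiff ℝ ∞ (fun V : C(K, X) => φ.comp V) :=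
  contDiff_infty.2 fun n => contDiff_nem_nat n φ (contDiff_infty.1 hφ n)

end Nem

section Fix

variable {P : Type} [NormedAddCommGroup P] [NormedSpace ℝ P] [CompleteSpace P]
variable {X : Type} [NormedAddCommGroup X] [NormedSpace ℝ X] [CompleteSpace X]

omit [NormedSpace ℝ X] [CompleteSpace X] in
theorem fix_unique {G : X → X} (hG : LipschitzWith (1 / 2) G) {x y : X} (hx : G x = x)
    (hy : G y = y) : x = y := by
  have h := hG.dist_le_mul x y
  rw [hx, hy] at h
  have h0 : (0 : ℝ) ≤ dist x y := dist_nonneg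
  have : dist x y = 0 := by
    push_cast at h
    linarith
  exact dist_eq_zero.1 this

omit [NormedSpace ℝ X] in
theorem fix_exists {G : X → X} (hG : LipschitzWith (1 / 2) G) : ∃ x, G x = x := by
  have hc : ContractingWith (1 / 2) G := ⟨by norm_num, hG⟩
  have : Nonempty X := ⟨0⟩
  exact ⟨hc.fixedPoint, hc.fixedPoint_isFixedPt⟩

/-- Smooth dependence of the fixed point on a parameter. -/
theorem contDiffAt_fix {G : P × X → X} (hG : ContDiff ℝ ∞ G) {p₀ : P}
    (hL : ∀ᶠ p in 𝓝 p₀, LipschitzWith (1 / 2) fun x => G (p, x))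
    {w : P → X} (hw : ∀ᶠ p in 𝓝 p₀, G (p, w p) = w p) : ContDiffAt ℝ ∞ w p₀ := by
  set f : P × X → X := fun z => z.2 - G z with hf
  have cdf : ContDiffAt ℝ ∞ f (p₀, w p₀) := (contDiff_snd.sub hG).contDiffAt
  have hGd : HasFDerivAt G (fderiv ℝ G (p₀, w p₀)) (p₀, w p₀) :=
    (hG.differentiable (by simp) _).hasFDerivAt
  have hA : HasFDerivAt (fun x => G (p₀, x))
      (fderiv ℝ G (p₀, w p₀) ∘L ContinuousLinearMap.inr ℝ P X) (w p₀) :=
    hGd.comp (w p₀) (hasFDerivAt_prodMk_right p₀ (w p₀))
  have hn := hA.le_of_lipschitz hL.self_of_nhds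
  set A := fderiv ℝ G (p₀, w p₀) ∘L ContinuousLinearMap.inr ℝ P X with hAdef
  have hn' : ‖A‖ < 1 := lt_of_le_of_lt hn (by norm_num)
  have hfd : fderiv ℝ f (p₀, w p₀) = ContinuousLinearMap.snd ℝ P X - fderiv ℝ G (p₀, w p₀) :=
    (hasFDerivAt_snd.sub hGd).fderiv
  have hinv : (fderiv ℝ f (p₀, w p₀) ∘L ContinuousLinearMap.inr ℝ P X).IsInvertible := by
    refine ⟨ContinuousLinearEquiv.ofUnit (Units.oneSub A hn'), ?_⟩
    rw [hfd]
    ext x
    simp [hAdef, ContinuousLinearEquiv.ofUnit]
  have h1 := cdf.contDiffAt_implicitFunction (by simp) hinv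
  have h2 := cdf.eventually_apply_implicitFunction (by simp) hinv
  refine h1.congr_of_eventuallyEq ?_
  filter_upwards [h2, hL, hw] with p hp hLp hwp
  have h0 : f (p₀, w p₀) = 0 := by simp [hf, hw.self_of_nhds]
  rw [h0] at hp
  refine fix_unique hLp hwp ?_
  exact (sub_eq_zero.1 hp).symm

end Fix

end Vale.Agent.P354W
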