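import Vale.Agent.P354W.Nem

/-!
The rescaled integral equation on the unit square and its smooth family of solutions.
-/

open Set Filter Topology MeasureTheory intervalIntegral
open scoped ContDiff NNReal

noncomputable section

namespace Vale.Agent.P354W

/-- Weighted integral bound. -/
theorem norm_int_le_cosh {X : Type} [NormedAddCommGroup X] [NormedSpace ℝ X] {g : ℝ → X}
    {α β C l : ℝ} (hl : 0 < l) (hC : 0 ≤ C)
    (h : ∀ t ∈ uIoc α β, ‖g t‖ ≤ C * Real.cosh (l * (t - α))) :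
    ‖∫ t in α..β, g t‖ ≤ C * Real.cosh (l * (β - α)) / l := by
  have h1 := norm_integral_le_abs_of_norm_le (μ := volume) (f := g) (a := α) (b := β)
    (g := fun t => C * Real.cosh (l * (t - α)))
    ((ae_restrict_mem measurableSet_uIoc).mono h)
    (by apply Continuous.intervalIntegrable; fun_prop)
  have h2 : ∫ t in α..β, C * Real.cosh (l * (t - α)) =
      C * Real.sinh (l * (β - α)) / l - C * Real.sinh (l * (α - α)) / l := by
    refine integral_eq_sub_of_hasDerivAt (f := fun t => C * Real.sinh (l * (t - α)) / l)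
      (fun t _ => ?_) (by apply Continuous.intervalIntegrable; fun_prop)
    have : HasDerivAt (fun t => l * (t - α)) l t := by
      simpa using ((hasDerivAt_id t).sub_const α).const_mul l
    have h3 := (this.sinh.const_mul C).div_const l
    rwa [mul_div_assoc, mul_div_cancel_right₀ _ hl.ne'] at h3
  rw [h2] at h1
  refine h1.trans ?_
  simp only [sub_self, mul_zero, Real.sinh_zero, zero_div, sub_zero]
  rw [abs_div, abs_mul, abs_of_nonneg hC, abs_of_pos hl, Real.abs_sinh, ← Real.cosh_abs]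
  gcongr
  exact (Real.sinh_lt_cosh _).le

theorem norm_int_le_cosh' {X : Type} [NormedAddCommGroup X] [NormedSpace ℝ X] {g : ℝ → X}
    {α β C l : ℝ} (hl : 0 < l) (hC : 0 ≤ C)
    (h : ∀ t ∈ uIoc α β, ‖g t‖ ≤ C * Real.cosh (l * (β - t))) :
    ‖∫ t in α..β, g t‖ ≤ C * Real.cosh (l * (β - α)) / l := by
  rw [integral_symm, norm_neg]
  have := norm_int_le_cosh (g := g) (α := β) (β := α) hl hC (fun t ht => by
    rw [uIoc_comm] at ht
    rw [← Real.cosh_neg]
    convert h t ht using 3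
    ring)
  rw [← Real.cosh_neg]
  convert this using 4
  ring

theorem cont_int {T : Type} [TopologicalSpace T] [FirstCountableTopology T]
    {X : Type} [NormedAddCommGroup X] [NormedSpace ℝ X]
    {f : T → ℝ → X} (hf : Continuous f.uncurry) {s₁ s₂ : T → ℝ} (h₁ : Continuous s₁)
    (h₂ : Continuous s₂) : Continuous fun x => ∫ t in s₁ x..s₂ x, f x t := by
  have hc : ∀ x, Continuous (f x) := fun x => hf.comp (Continuous.prodMk_right x)
  have := (continuous_parametric_intervalIntegral_of_continuous (μ := volume) (a₀ := 0) hf h₂).sub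
    (continuous_parametric_intervalIntegral_of_continuous (μ := volume) (a₀ := 0) hf h₁)
  refine this.congr fun x => ?_
  exact integral_interval_sub_left ((hc x).intervalIntegrable _ _) ((hc x).intervalIntegrable _ _)

/-- The unit square. -/
abbrev Sq : Type := unitInterval × unitInterval

/-- Projection onto the unit interval. -/
def pr (t : ℝ) : unitInterval := projIcc 0 1 zero_le_one t

@[fun_prop] theorem continuous_pr : Continuous pr := continuous_projIcc (h := zero_le_one)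

theorem pr_coe {t : ℝ} (h0 : 0 ≤ t) (h1 : t ≤ 1) : (pr t : ℝ) = t := by
  rw [pr, projIcc_of_mem _ ⟨h0, h1⟩]

@[simp] theorem pr_val (a : unitInterval) : pr a = a := projIcc_val _ a

theorem mem01 {α β t : ℝ} (hα : α ∈ Icc (0 : ℝ) 1) (hβ : β ∈ Icc (0 : ℝ) 1)
    (ht : t ∈ uIcc α β) : 0 ≤ t ∧ t ≤ 1 := by
  have := uIcc_subset_Icc hα hβ ht
  exact ⟨this.1, this.2⟩

theorem one_sub_mem01 (a : unitInterval) : 1 - (a : ℝ) ∈ Icc (0 : ℝ) 1 :=
  ⟨by linarith [a.2.2], by linarith [a.2.1]⟩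

variable {X : Type} [NormedAddCommGroup X] [NormedSpace ℝ X]

/-- Integration along a family of segments. -/
def jL (X : Type) [NormedAddCommGroup X] [NormedSpace ℝ X] (c : C(Sq × ℝ, Sq))
    (α β : C(Sq, ℝ)) : C(Sq, X) →L[ℝ] C(Sq, X) :=
  LinearMap.mkContinuous
    { toFun := fun V => ⟨fun k => ∫ t in α k..β k, V (c (k, t)),
        cont_int (f := fun k t => V (c (k, t))) (V.continuous.comp c.continuous)
          α.continuous β.continuous⟩
      map_add' := fun V W => by
        ext k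
        simp only [ContinuousMap.coe_mk, ContinuousMap.add_apply]
        refine integral_add ?_ ?_ <;> apply Continuous.intervalIntegrable <;> fun_prop
      map_smul' := fun r V => by
        ext k
        simp only [ContinuousMap.coe_mk, ContinuousMap.smul_apply, RingHom.id_apply]
        exact intervalIntegral.integral_smul _ _ }
    ‖β - α‖
    (fun V => by
      refine (ContinuousMap.norm_le _ (mul_nonneg (norm_nonneg (β - α)) (norm_nonneg V))).2
        fun k => ?_
      refine (norm_integral_le_of_norm_le_const (C := ‖V‖)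
        fun t _ => V.norm_coe_le_norm _).trans ?_
      rw [mul_comm]
      exact mul_le_mul_of_nonneg_right ((β - α).norm_coe_le_norm k) (norm_nonneg V))

theorem jL_apply (c : C(Sq × ℝ, Sq)) (α β : C(Sq, ℝ)) (V : C(Sq, X)) (k : Sq) :
    jL X c α β V k = ∫ t in α k..β k, V (c (k, t)) := rfl

/-- First coordinate on the square. -/
def ca : C(Sq, ℝ) := ⟨fun k => k.1, by fun_prop⟩

/-- Second coordinate on the square. -/
def cb : C(Sq, ℝ) := ⟨fun k => k.2, by fun_prop⟩

/-- Integration in the second variable. -/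
def j₁ (X : Type) [NormedAddCommGroup X] [NormedSpace ℝ X] : C(Sq, X) →L[ℝ] C(Sq, X) :=
  jL X ⟨fun z => (z.1.1, pr z.2), by fun_prop⟩ cb (1 - ca)

/-- Integration in the first variable. -/
def j₂ (X : Type) [NormedAddCommGroup X] [NormedSpace ℝ X] : C(Sq, X) →L[ℝ] C(Sq, X) :=
  jL X ⟨fun z => (pr z.2, z.1.2), by fun_prop⟩ ca (1 - cb)

theorem j₁_apply (V : C(Sq, X)) (k : Sq) :
    j₁ X V k = ∫ t in (k.2 : ℝ)..(1 - k.1), V (k.1, pr t) := rfl

theorem j₂_apply (V : C(Sq, X)) (k : Sq) :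
    j₂ X V k = ∫ t in (k.1 : ℝ)..(1 - k.2), V (pr t, k.2) := rfl

/-- Multiplication by a continuous function. -/
def mulL (X : Type) [NormedAddCommGroup X] [NormedSpace ℝ X] (w : C(Sq, ℝ)) :
    C(Sq, X) →L[ℝ] C(Sq, X) :=
  appL Sq X X ⟨fun k => w k • ContinuousLinearMap.id ℝ X, by fun_prop⟩

@[simp] theorem mulL_apply (w : C(Sq, ℝ)) (V : C(Sq, X)) (k : Sq) :
    mulL X w V k = w k • V k := rfl

/-- The weight. -/
def wt (l : ℝ) : C(Sq, ℝ) := ⟨fun k => Real.cosh (l * (1 - k.1 - k.2)), by fun_prop⟩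

/-- The inverse weight. -/
def wi (l : ℝ) : C(Sq, ℝ) := ⟨fun k => (Real.cosh (l * (1 - k.1 - k.2)))⁻¹,
  Continuous.inv₀ (by fun_prop) fun _ => (Real.cosh_pos _).ne'⟩

theorem wi_wt (l : ℝ) (V : C(Sq, X)) : mulL X (wi l) (mulL X (wt l) V) = V := by
  ext k
  simp [wi, wt, smul_smul, (Real.cosh_pos _).ne']

theorem wt_wi (l : ℝ) (V : C(Sq, X)) : mulL X (wt l) (mulL X (wi l) V) = V := by
  ext k
  simp [wi, wt, smul_smul, (Real.cosh_pos _).ne']

section G

variable {E F : Type} [NormedAddCommGroup E] [NormedSpace ℝ E] [NormedAddCommGroup F]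
  [NormedSpace ℝ F]

/-- The rescaled Picard map. -/
def gG (φ : C(E × F, E × F)) (z₀ : C(ℝ, E × F)) (z : (ℝ × ℝ) × C(Sq, E × F)) : C(Sq, E × F) :=
  ((ContinuousLinearMap.inl ℝ E F).comp (ContinuousLinearMap.fst ℝ E F)).compLeftContinuous ℝ Sq
      (z₀.comp ((-z.1.1) • (1 : C(Sq, ℝ)) + (z.1.1 + z.1.2) • ca) +
        (z.1.1 + z.1.2) • j₁ (E × F) (φ.comp z.2)) +
    ((ContinuousLinearMap.inr ℝ E F).comp (ContinuousLinearMap.snd ℝ E F)).compLeftContinuous ℝ Sq
      (z₀.comp (z.1.2 • (1 : C(Sq, ℝ)) - (z.1.1 + z.1.2) • cb) +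
        (z.1.1 + z.1.2) • j₂ (E × F) (φ.comp z.2))

theorem gG_apply (φ : C(E × F, E × F)) (z₀ : C(ℝ, E × F)) (p : ℝ × ℝ) (W : C(Sq, E × F))
    (k : Sq) : gG φ z₀ (p, W) k =
      ((z₀ (-p.1 + (p.1 + p.2) * k.1) +
          (p.1 + p.2) • ∫ t in (k.2 : ℝ)..(1 - k.1), φ (W (k.1, pr t))).1,
       (z₀ (p.2 - (p.1 + p.2) * k.2) +
          (p.1 + p.2) • ∫ t in (k.1 : ℝ)..(1 - k.2), φ (W (pr t, k.2))).2) := by
  simp [gG, j₁_apply, j₂_apply, ca, cb]

theorem contDiff_gG {φ : C(E × F, E × F)} {z₀ : C(ℝ, E × F)} (hφ : ContDiff ℝ ∞ φ)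
    (hz : ContDiff ℝ ∞ z₀) : ContDiff ℝ ∞ (gG φ z₀) := by
  have h1 := contDiff_nem (K := Sq) φ hφ
  have h2 := contDiff_nem (K := Sq) z₀ hz
  unfold gG
  refine ContDiff.add ((ContinuousLinearMap.contDiff _).comp (ContDiff.add (h2.comp ?_) ?_))
    ((ContinuousLinearMap.contDiff _).comp (ContDiff.add (h2.comp ?_) ?_))
  · fun_prop
  · exact ContDiff.smul (contDiff_fst.fst.add contDiff_fst.snd)
      ((j₁ (E × F)).contDiff.comp (h1.comp contDiff_snd))
  · fun_prop
  · exact ContDiff.smul (contDiff_fst.fst.add contDiff_fst.snd)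
      ((j₂ (E × F)).contDiff.comp (h1.comp contDiff_snd))

theorem lip_gG {φ : C(E × F, E × F)} (z₀ : C(ℝ, E × F)) {L : ℝ≥0} (hφ : LipschitzWith L φ)
    {H : ℝ} (hH : 0 ≤ H) {p : ℝ × ℝ} (hp : |p.1 + p.2| ≤ H) :
    LipschitzWith (1 / 2) fun V : C(Sq, E × F) =>
      mulL _ (wi (2 * L * H + 1)) (gG φ z₀ (p, mulL _ (wt (2 * L * H + 1)) V)) := by
  set l : ℝ := 2 * L * H + 1 with hl
  have hl0 : 0 < l := by positivity
  refine LipschitzWith.of_dist_le_mul fun V V' => ?_
  rw [dist_eq_norm, dist_eq_norm]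
  set D := ‖V - V'‖ with hD
  have hD0 : 0 ≤ D := norm_nonneg (V - V')
  refine (ContinuousMap.norm_le _ (by positivity)).2 fun k => ?_
  have hpt : ∀ k : Sq, ‖φ (mulL _ (wt l) V k) - φ (mulL _ (wt l) V' k)‖ ≤
      L * D * Real.cosh (l * (1 - k.1 - k.2)) := fun k => by
    refine (hφ.norm_sub_le _ _).trans ?_
    rw [mulL_apply, mulL_apply, ← smul_sub, norm_smul, mul_assoc]
    refine mul_le_mul_of_nonneg_left ?_ L.2
    rw [mul_comm]
    refine mul_le_mul ((V - V').norm_coe_le_norm k) ?_ (norm_nonneg _) hD0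
    simp [wt, abs_of_pos (Real.cosh_pos _)]
  have hc := Real.cosh_pos (l * (1 - k.1 - k.2))
  have fin : ∀ y : E × F, ‖y‖ ≤ L * D * Real.cosh (l * (1 - k.1 - k.2)) / l →
      ‖(p.1 + p.2) • y‖ ≤ Real.cosh (l * (1 - k.1 - k.2)) * (1 / 2 * D) := fun y hy => by
    rw [norm_smul, Real.norm_eq_abs]
    refine (mul_le_mul hp hy (norm_nonneg _) hH).trans ?_
    rw [mul_div_assoc', div_le_iff₀ hl0, hl]
    have : 0 ≤ Real.cosh ((2 * L * H + 1) * (1 - k.1 - k.2)) * D := by positivity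
    nlinarith
  have i1 := norm_int_le_cosh' (α := k.2) (β := 1 - k.1) (l := l) (C := L * D)
    (g := fun t => φ (mulL _ (wt l) V (k.1, pr t)) - φ (mulL _ (wt l) V' (k.1, pr t))) hl0
    (by positivity) (fun t ht => by
      have h01 := mem01 k.2.2 (one_sub_mem01 k.1) (uIoc_subset_uIcc ht)
      have := hpt (k.1, pr t)
      rwa [pr_coe h01.1 h01.2] at this)
  have i2 := norm_int_le_cosh' (α := k.1) (β := 1 - k.2) (l := l) (C := L * D)
    (g := fun t => φ (mulL _ (wt l) V (pr t, k.2)) - φ (mulL _ (wt l) V' (pr t, k.2))) hl0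
    (by positivity) (fun t ht => by
      have h01 := mem01 k.1.2 (one_sub_mem01 k.2) (uIoc_subset_uIcc ht)
      have := hpt (pr t, k.2)
      rw [pr_coe h01.1 h01.2] at this
      convert this using 3
      ring)
  rw [intervalIntegral.integral_sub (by apply Continuous.intervalIntegrable; fun_prop)
    (by apply Continuous.intervalIntegrable; fun_prop)] at i1 i2
  rw [show (1 : ℝ) - k.2 - k.1 = 1 - k.1 - k.2 by ring] at i2
  have f1 := fin _ i1
  have f2 := fin _ i2
  rw [ContinuousMap.sub_apply, mulL_apply, mulL_apply, ← smul_sub, norm_smul, gG_apply, gG_apply]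
  have hw : ‖wi l k‖ = (Real.cosh (l * (1 - k.1 - k.2)))⁻¹ := by
    simp [wi, abs_of_pos (Real.cosh_pos _)]
  rw [hw, inv_mul_le_iff₀ hc]
  push_cast
  rw [Prod.mk_sub_mk, Prod.norm_mk, ← Prod.fst_sub, ← Prod.snd_sub, add_sub_add_left_eq_sub,
    add_sub_add_left_eq_sub, ← smul_sub, ← smul_sub]
  exact max_le ((norm_fst_le _).trans f1) ((norm_snd_le _).trans f2)

variable [CompleteSpace E] [CompleteSpace F]

/-- The smooth family of solutions of the rescaled equation. -/
theorem exists_family {φ : C(E × F, E × F)} {z₀ : C(ℝ, E × F)} (hφ : ContDiff ℝ ∞ φ)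
    (hz : ContDiff ℝ ∞ z₀) {L : ℝ≥0} (hL : LipschitzWith L φ) :
    ∃ S : ℝ × ℝ → C(Sq, E × F), ContDiff ℝ ∞ S ∧ (∀ p, gG φ z₀ (p, S p) = S p) ∧
      ∀ p W, gG φ z₀ (p, W) = W → W = S p := by
  have hex : ∀ p : ℝ × ℝ, ∃ W, gG φ z₀ (p, W) = W := fun p => by
    obtain ⟨V, hV⟩ := fix_exists (lip_gG z₀ hL (abs_nonneg _) (le_refl |p.1 + p.2|))
    refine ⟨mulL _ (wt (2 * L * |p.1 + p.2| + 1)) V, ?_⟩
    conv_rhs => rw [← hV]
    rw [wt_wi]
  choose S hS using hex
  refine ⟨S, ?_, hS, fun p W hW => ?_⟩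
  · rw [contDiff_iff_contDiffAt]
    intro p₀
    set H := |p₀.1 + p₀.2| + 1 with hH
    have hH0 : 0 ≤ H := by positivity
    have hev : ∀ᶠ p : ℝ × ℝ in 𝓝 p₀, |p.1 + p.2| ≤ H := by
      have : ContinuousAt (fun p : ℝ × ℝ => |p.1 + p.2|) p₀ := by fun_prop
      exact (this.eventually (gt_mem_nhds (by linarith : |p₀.1 + p₀.2| < H))).mono
        fun p hp => hp.le
    set l : ℝ := 2 * L * H + 1 with hl
    have h1 : ContDiffAt ℝ ∞ (fun p => mulL (E × F) (wi l) (S p)) p₀ := by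
      refine contDiffAt_fix
        (G := fun z : (ℝ × ℝ) × C(Sq, E × F) =>
          mulL _ (wi l) (gG φ z₀ (z.1, mulL _ (wt l) z.2))) ?_
        (hev.mono fun p hp => lip_gG z₀ hL hH0 hp) (Eventually.of_forall fun p => ?_)
      · exact (mulL _ (wi l)).contDiff.comp ((contDiff_gG hφ hz).comp
          (contDiff_fst.prodMk ((mulL _ (wt l)).contDiff.comp contDiff_snd)))
      · simp only [wt_wi, hS]
    have h2 := (mulL (E × F) (wt l)).contDiff.contDiffAt.comp p₀ h1
    refine h2.congr_of_eventuallyEq (Eventually.of_forall fun p => ?_)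
    simp only [Function.comp, wt_wi]
  · have := fix_unique (lip_gG z₀ hL (abs_nonneg _) (le_refl |p.1 + p.2|))
      (x := mulL _ (wi (2 * L * |p.1 + p.2| + 1)) W)
      (y := mulL _ (wi (2 * L * |p.1 + p.2| + 1)) (S p))
      (by simp only [wt_wi, hW]) (by simp only [wt_wi, hS])
    rw [← wt_wi (2 * L * |p.1 + p.2| + 1) W, this, wt_wi]

end G

end Vale.Agent.P354W
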