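import Vale.Agent.P354E.Calc
import Vale.Agent.P354E.PS
import Vale.Agent.P354W.Apri
import Vale.Agent.P354W.Op

/-!
Tools for the comparison of two solutions in a thin strip.
-/

open Set Filter Topology MeasureTheory

noncomputable section

namespace Vale.Agent.P354W

open Vale.Agent.P354E (P2 Du Dv Fld G1 G2 G3 IsSol IsDom Cur PS_cut)

/-- Two numbers of size `K ^ j * W` whose difference has size `K ^ j * ω`. -/
structure Df (K W ω : ℝ) (j : ℕ) (x x' : ℝ) : Prop where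
  a : |x| ≤ K ^ j * W
  b : |x'| ≤ K ^ j * W
  d : |x - x'| ≤ K ^ j * ω

namespace Df

variable {K W ω η x x' y y' : ℝ} {i j : ℕ}

theorem mono (hK : 2 ≤ K) (hW : 0 ≤ W) (hω : 0 ≤ ω) (h : Df K W ω i x x') (hij : i ≤ j) :
    Df K W ω j x x' := by
  have : K ^ i ≤ K ^ j := pow_le_pow_right₀ (by linarith) hij
  exact ⟨h.a.trans (by gcongr), h.b.trans (by gcongr), h.d.trans (by gcongr)⟩

theorem neg (h : Df K W ω i x x') : Df K W ω i (-x) (-x') :=
  ⟨by rw [abs_neg]; exact h.a, by rw [abs_neg]; exact h.b,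
    by rw [neg_sub_neg, abs_sub_comm]; exact h.d⟩

theorem two_le (hK : 2 ≤ K) {t : ℝ} (ht : 0 ≤ t) (j : ℕ) :
    K ^ j * t + K ^ j * t ≤ K ^ (j + 1) * t := by
  have : 0 ≤ K ^ j * t := mul_nonneg (pow_nonneg (by linarith) j) ht
  rw [pow_succ]
  nlinarith

theorem add (hK : 2 ≤ K) (hW : 0 ≤ W) (hω : 0 ≤ ω) (h : Df K W ω j x x') (h' : Df K W ω j y y') :
    Df K W ω (j + 1) (x + y) (x' + y') := by
  refine ⟨(abs_add_le _ _).trans ((add_le_add h.a h'.a).trans (two_le hK hW j)),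
    (abs_add_le _ _).trans ((add_le_add h.b h'.b).trans (two_le hK hW j)), ?_⟩
  rw [add_sub_add_comm]
  exact (abs_add_le _ _).trans ((add_le_add h.d h'.d).trans (two_le hK hω j))

theorem mul (hK : 2 ≤ K) (hW : 0 ≤ W) (hη : 0 ≤ η) (hω : W * η ≤ ω) (h : Df K 1 η i x x')
    (h' : Df K W ω j y y') : Df K W ω (i + j + 1) (x * y) (x' * y') := by
  have hK0 : 0 ≤ K := by linarith
  have hω0 : 0 ≤ ω := (mul_nonneg hW hη).trans hω
  have p1 : 0 ≤ K ^ i := pow_nonneg hK0 i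
  have p2 : 0 ≤ K ^ j := pow_nonneg hK0 j
  have e : K ^ (i + j) ≤ K ^ (i + j + 1) := pow_le_pow_right₀ (by linarith) (Nat.le_succ _)
  have k : ∀ {s t : ℝ}, |s| ≤ K ^ i * 1 → |t| ≤ K ^ j * W → |s * t| ≤ K ^ (i + j + 1) * W :=
    fun hs ht => by
      rw [abs_mul]
      refine (mul_le_mul hs ht (abs_nonneg _) (by positivity)).trans ?_
      rw [mul_one, ← mul_assoc, ← pow_add]
      gcongr
  refine ⟨k h.a h'.a, k h.b h'.b, ?_⟩
  rw [show x * y - x' * y' = (x - x') * y + x' * (y - y') by ring]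
  refine (abs_add_le _ _).trans (le_trans ?_ (two_le hK hω0 (i + j)))
  rw [abs_mul, abs_mul, pow_add]
  refine add_le_add ((mul_le_mul h.d h'.a (abs_nonneg _) (by positivity)).trans ?_)
    ((mul_le_mul h.b h'.d (abs_nonneg _) (by positivity)).trans (le_of_eq (by ring)))
  calc K ^ i * η * (K ^ j * W) = K ^ i * K ^ j * (W * η) := by ring
    _ ≤ K ^ i * K ^ j * ω := by gcongr

theorem mul' (hK : 2 ≤ K) (hη : 0 ≤ η) (h : Df K 1 η i x x') (h' : Df K 1 η j y y') :
    Df K 1 η (i + j + 1) (x * y) (x' * y') :=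
  mul hK zero_le_one hη (one_mul η).le h h'

theorem const (hK : 2 ≤ K) (hη : 0 ≤ η) {c : ℝ} (hc : |c| ≤ K) : Df K 1 η 1 c c :=
  ⟨by simpa using hc, by simpa using hc, by
    rw [sub_self, abs_zero]
    exact mul_nonneg (pow_nonneg (by linarith) _) hη⟩

theorem of_le (hK : 2 ≤ K) (hη : 0 ≤ η) (h : |x| ≤ K) (h' : |x'| ≤ K) (hd : |x - x'| ≤ η) :
    Df K 1 η 1 x x' :=
  ⟨by simpa using h, by simpa using h', hd.trans (by rw [pow_one]; nlinarith)⟩

theorem inv (hK : 2 ≤ K) (hx : 0 < x) (hx' : 0 < x') (h : x⁻¹ ≤ K) (h' : x'⁻¹ ≤ K)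
    (hd : |x - x'| ≤ η) : Df K 1 η 2 x⁻¹ x'⁻¹ := by
  have p := inv_pos.2 hx
  have p' := inv_pos.2 hx'
  refine ⟨by rw [abs_of_pos p]; nlinarith, by rw [abs_of_pos p']; nlinarith, ?_⟩
  rw [show x⁻¹ - x'⁻¹ = x⁻¹ * x'⁻¹ * -(x - x') by field_simp; ring, abs_mul, abs_neg,
    abs_of_pos (mul_pos p p'), sq]
  exact mul_le_mul (mul_le_mul h h' p'.le (by linarith)) hd (abs_nonneg _) (by nlinarith)

theorem congr {z z' : ℝ} (h : Df K W ω i x x') (e : z = x) (e' : z' = x') : Df K W ω i z z' :=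
  e ▸ e' ▸ h

end Df

theorem abs_exp_sub_le (a b : ℝ) :
    |Real.exp a - Real.exp b| ≤ (Real.exp a + Real.exp b) * |a - b| := by
  have key : ∀ a b : ℝ, b ≤ a → |Real.exp a - Real.exp b| ≤ (Real.exp a + Real.exp b) * |a - b| := by
    intro a b h
    rw [abs_of_nonneg (sub_nonneg.2 (Real.exp_le_exp.2 h)), abs_of_nonneg (sub_nonneg.2 h)]
    have h1 := Real.add_one_le_exp (b - a)
    have h2 : Real.exp b = Real.exp a * Real.exp (b - a) := by rw [← Real.exp_add]; ring_nf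
    have h3 := Real.exp_pos a
    have h4 := mul_le_mul_of_nonneg_left h1 h3.le
    have h5 := mul_nonneg (Real.exp_pos b).le (sub_nonneg.2 h)
    nlinarith
  rcases le_total b a with h | h
  · exact key a b h
  · rw [abs_sub_comm, abs_sub_comm a, add_comm]
    exact key b a h

/-- The strip. -/
def Om (V R h : ℝ) : Set P2 := {q | q.2 ∈ Icc R (R + h) ∧ q.1 ∈ Icc (-q.2) V}

theorem isCompact_Om (V R h : ℝ) : IsCompact (Om V R h) := by
  refine (isCompact_Icc (a := ((-(R + h), R) : P2)) (b := (V, R + h))).of_isClosed_subset ?_ ?_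
  · exact (isClosed_Icc.preimage continuous_snd).inter
      ((isClosed_le continuous_snd.neg continuous_fst).inter
        (isClosed_le continuous_fst continuous_const))
  · rintro q ⟨⟨h1, h2⟩, h3, h4⟩
    exact ⟨⟨by simp only; linarith, h1⟩, ⟨h4, h2⟩⟩

variable {V R h : ℝ} {f g m : P2 → ℝ}

theorem ii_line (hf : Continuous f) (a b v : ℝ) :
    IntervalIntegrable (fun y => f (y, v)) volume a b :=
  (hf.comp (Continuous.prodMk_left v)).intervalIntegrable a b

theorem int_u_le (hd : ∀ q, Du f q (g q)) (hg : Continuous g) (hm : Continuous m) {u v : ℝ}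
    (hu : u ∈ Icc (-v) V) (hb : ∀ y ∈ Icc (-v) V, |g (y, v)| ≤ m (y, v)) :
    |f (u, v) - f (-v, v)| ≤ ∫ y in (-v)..V, m (y, v) := by
  rw [← P354E.ftcU (D := univ) hu.1 (fun _ _ => mem_univ _) (fun q _ => hd q) hg.continuousOn]
  refine (intervalIntegral.abs_integral_le_integral_abs hu.1).trans ?_
  refine (intervalIntegral.integral_mono_on hu.1 (ii_line hg _ _ _).abs (ii_line hm _ _ _)
    fun y hy => hb y ⟨hy.1, hy.2.trans hu.2⟩).trans ?_
  refine intervalIntegral.integral_mono_interval le_rfl hu.1 hu.2 ?_ (ii_line hm _ _ _)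
  filter_upwards [ae_restrict_mem measurableSet_Ioc] with y hy
  exact (abs_nonneg _).trans (hb y ⟨hy.1.le, hy.2⟩)

theorem sup_v_le (hd : ∀ q, Dv f q (g q)) {a b : ℝ} (ha : 0 ≤ a) (hb : ∀ q ∈ Om V R h, |g q| ≤ b)
    (h0 : ∀ y ∈ Icc (-R) V, f (y, R) = 0) (h1 : ∀ x ∈ Icc R (R + h), |f (-x, x)| ≤ a) :
    ∀ q ∈ Om V R h, |f q| ≤ a + h * b := by
  rintro ⟨u, v⟩ ⟨⟨k1, k2⟩, k3, k4⟩
  simp only at k1 k2 k3 k4
  have hb0 : 0 ≤ b := (abs_nonneg _).trans (hb (u, v) ⟨⟨k1, k2⟩, k3, k4⟩)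
  rcases le_total (-R) u with c | c
  · have := abs_sub_le_seg (F := fun s => f (u, s)) (F' := fun s => g (u, s)) k1
      (fun s _ => hd (u, s)) fun s hs =>
        hb (u, s) ⟨⟨hs.1, hs.2.trans k2⟩, by simp only; linarith [hs.1], k4⟩
    rw [h0 u ⟨c, k4⟩, sub_zero] at this
    nlinarith
  · have := abs_sub_le_seg (F := fun s => f (u, s)) (F' := fun s => g (u, s)) (a := -u) (b := v)
      (by linarith) (fun s _ => hd (u, s)) fun s hs =>
        hb (u, s) ⟨⟨by simp only; linarith [hs.1], hs.2.trans k2⟩,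
          by simp only; linarith [hs.1], k4⟩
    have h2 := h1 (-u) ⟨by linarith, by linarith⟩
    rw [neg_neg] at h2
    have h3 := abs_add_le (f (u, v) - f (u, -u)) (f (u, -u))
    rw [sub_add_cancel] at h3
    nlinarith

theorem L1_v_le (hV : -V ≤ R) (hd : ∀ q, Dv f q (g q)) (hf : Continuous f) (hg : Continuous g)
    {a b : ℝ} (hb : ∀ s ∈ Icc R (R + h), ∫ y in (-s)..V, |g (y, s)| ≤ b)
    (h0 : ∀ y ∈ Icc (-R) V, f (y, R) = 0) (h1 : ∀ x ∈ Icc R (R + h), |f (-x, x)| ≤ a) :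
    ∀ v ∈ Icc R (R + h), ∫ y in (-v)..V, |f (y, v)| ≤ h * (a + b) := by
  intro v hv
  have ha : 0 ≤ a := (abs_nonneg _).trans (h1 v hv)
  have hb0 : 0 ≤ b := le_trans (intervalIntegral.integral_nonneg (by linarith [hv.1])
    fun _ _ => abs_nonneg _) (hb v hv)
  have hvh : v - R ≤ h := by linarith [hv.2]
  refine le_of_forall_pos_le_add fun δ hδ => ?_
  set ε := δ / (V + R + h + 1) with hε
  have hh : 0 ≤ h := by linarith [hv.1, hv.2]
  have hden : 0 < V + R + h + 1 := by linarith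
  have ε0 : 0 < ε := div_pos hδ hden
  have pos : ∀ q, 0 < f q ^ 2 + ε ^ 2 := fun q => by positivity
  have cB : Continuous fun q => √(f q ^ 2 + ε ^ 2) := by fun_prop
  have cV : Continuous fun q => f q * g q / √(f q ^ 2 + ε ^ 2) :=
    (hf.mul hg).div cB fun q => (Real.sqrt_pos.2 (pos q)).ne'
  have lo : ∀ q, |f q| ≤ √(f q ^ 2 + ε ^ 2) := fun q => Real.abs_le_sqrt (by nlinarith)
  have up : ∀ q, √(f q ^ 2 + ε ^ 2) ≤ |f q| + ε := fun q => by
    rw [Real.sqrt_le_left (by positivity)]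
    nlinarith [abs_nonneg (f q), sq_abs (f q)]
  have hc : Cur univ (fun _ => 0) (fun q => √(f q ^ 2 + ε ^ 2)) (fun _ => 0)
      (fun q => f q * g q / √(f q ^ 2 + ε ^ 2)) :=
    ⟨isOpen_univ, continuousOn_const, cB.continuousOn, continuousOn_const, cV.continuousOn,
      fun q _ => Du.const 0 q, fun q _ => by
        have h2 := HasDerivAt.sqrt (HasDerivAt.add_const (ε ^ 2) (hd q).sq) (pos q).ne'
        refine Dv.congr_d h2 ?_
        have := (Real.sqrt_pos.2 (pos q)).ne'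
        field_simp⟩
  have key := PS_cut hc (u := V) (v := v) (c := R) hV hv.1 fun _ _ _ => mem_univ _
  simp only [intervalIntegral.integral_zero, add_zero, zero_add] at key
  have e1 : ∫ y in (-v)..V, |f (y, v)| ≤ ∫ y in (-v)..V, √(f (y, v) ^ 2 + ε ^ 2) :=
    intervalIntegral.integral_mono_on (by linarith [hv.1]) (ii_line hf _ _ _).abs
      (ii_line cB _ _ _) fun y _ => lo _
  have e2 : ∫ y in (-R)..V, √(f (y, R) ^ 2 + ε ^ 2) ≤ (V + R) * ε := by
    have := intervalIntegral.integral_mono_on (a := -R) (b := V) (by linarith) (ii_line cB _ _ R)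
      (intervalIntegrable_const (c := ε)) fun y hy => by
        simpa [h0 y hy] using up (y, R)
    simpa using this
  have e3 : ∫ x in R..v, √(f (-x, x) ^ 2 + ε ^ 2) ≤ (v - R) * (a + ε) := by
    have := intervalIntegral.integral_mono_on (μ := volume) hv.1
      (f := fun x => √(f (-x, x) ^ 2 + ε ^ 2))
      ((cB.comp (by fun_prop : Continuous fun x : ℝ => ((-x, x) : P2))).intervalIntegrable _ _)
      (intervalIntegrable_const (c := a + ε)) fun x hx =>
        (up _).trans (by linarith [h1 x ⟨hx.1, hx.2.trans hv.2⟩])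
    rwa [intervalIntegral.integral_const, smul_eq_mul] at this
  have e4 : ∫ s in R..v, ∫ y in (-s)..V, f (y, s) * g (y, s) / √(f (y, s) ^ 2 + ε ^ 2) ≤
      (v - R) * b := by
    have := intervalIntegral.integral_mono_on (μ := volume) hv.1
      (f := fun s => ∫ y in (-s)..V, f (y, s) * g (y, s) / √(f (y, s) ^ 2 + ε ^ 2))
      ((cont_int (f := fun s y => f (y, s) * g (y, s) / √(f (y, s) ^ 2 + ε ^ 2))
        (cV.comp continuous_swap) continuous_neg continuous_const).intervalIntegrable _ _)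
      (intervalIntegrable_const (c := b)) fun s hs => by
        refine le_trans ?_ (hb s ⟨hs.1, hs.2.trans hv.2⟩)
        refine intervalIntegral.integral_mono_on (by linarith [hs.1]) (ii_line cV _ _ _)
          (ii_line hg _ _ _).abs fun y _ => ?_
        rw [div_le_iff₀ (Real.sqrt_pos.2 (pos _))]
        refine (le_abs_self _).trans ?_
        rw [abs_mul, mul_comm]
        exact mul_le_mul_of_nonneg_left (lo _) (abs_nonneg _)
    rwa [intervalIntegral.integral_const, smul_eq_mul] at this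
  have e5 : (V + R + h + 1) * ε = δ := by rw [hε]; field_simp
  have e6 : (v - R) * (a + ε) ≤ h * (a + ε) := mul_le_mul_of_nonneg_right hvh (by positivity)
  have e7 : (v - R) * b ≤ h * b := mul_le_mul_of_nonneg_right hvh hb0
  nlinarith

theorem exists_sup {T : Type*} [TopologicalSpace T] {K : Set T} (hK : IsCompact K)
    (hne : K.Nonempty) {F : T → ℝ} (hF : Continuous F) (h0 : ∀ q ∈ K, 0 ≤ F q) :
    ∃ a, 0 ≤ a ∧ (∀ q ∈ K, F q ≤ a) ∧ ∀ b, (∀ q ∈ K, F q ≤ b) → a ≤ b := by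
  obtain ⟨q, hq, hm⟩ := hK.exists_isMaxOn hne hF.continuousOn
  exact ⟨F q, h0 q hq, fun _ h => hm h, fun b hb => hb q hq⟩

end Vale.Agent.P354W
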