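import Vale.Agent.P354W.Strip1

/-!
Comparison of two solutions in a thin strip.
-/

open Set Filter Topology MeasureTheory

noncomputable section

namespace Vale.Agent.P354W

open Vale.Agent.P354E (P2 Du Dv Fld G1 G2 G3 IsSol O_pos)

/-- The integrable weight. -/
def wX (X : Fld) (q : P2) : ℝ := X.O q + |X.n q| + |X.r q * X.pu q|

/-- The right side of the equations for `r l` and `r n`. -/
def hH (e : ℝ) (X : Fld) (q : P2) : ℝ := -(X.O q / 4) * (1 - e ^ 2 / X.r q ^ 2)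

/-- Continuity of the fields on the whole plane. -/
structure CC (e : ℝ) (X : Fld) : Prop where
  r : Continuous X.r
  w : Continuous X.w
  l : Continuous X.l
  n : Continuous X.n
  wv : Continuous X.wv
  pu : Continuous X.pu
  pv : Continuous X.pv
  O : Continuous X.O
  H : Continuous (hH e X)
  g3 : Continuous (G3 e X)
  W : Continuous (wX X)

theorem cc_of {e : ℝ} {X : Fld} (h : IsSol e X univ) : CC e X := by
  have c := h.cont
  have r := continuousOn_univ.1 c.r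
  have n := continuousOn_univ.1 c.n
  have pu := continuousOn_univ.1 c.pu
  have O := continuousOn_univ.1 c.O
  exact ⟨r, continuousOn_univ.1 c.w, continuousOn_univ.1 c.l, n, continuousOn_univ.1 c.wv, pu,
    continuousOn_univ.1 c.pv, O, continuousOn_univ.1 h.cont_H, continuousOn_univ.1 h.cont_G3,
    (O.add n.abs).add (r.mul pu).abs⟩

theorem wX_ge (X : Fld) (q : P2) :
    X.O q ≤ wX X q ∧ |X.n q| ≤ wX X q ∧ |X.r q * X.pu q| ≤ wX X q ∧ 0 ≤ wX X q := by
  have h1 := O_pos X q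
  have h2 := abs_nonneg (X.n q)
  have h3 := abs_nonneg (X.r q * X.pu q)
  unfold wX
  refine ⟨?_, ?_, ?_, ?_⟩ <;> linarith

/-- A priori bounds in the strip. -/
structure Pri (K V R h : ℝ) (X : Fld) : Prop where
  r : ∀ q ∈ Om V R h, |X.r q| ≤ K
  i : ∀ q ∈ Om V R h, (X.r q)⁻¹ ≤ K
  l : ∀ q ∈ Om V R h, |X.l q| ≤ K
  pv : ∀ q ∈ Om V R h, |X.pv q| ≤ K
  int : ∀ v ∈ Icc R (R + h), ∫ y in (-v)..V, wX X (y, v) ≤ K

theorem pri_of {e V R h L : ℝ} {X : Fld} (hX : IsSol e X univ) (hL : 2 ≤ L) (he : e ^ 2 ≤ L)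
    (hb : ∀ v ∈ Icc R (R + h),
      ∫ y in (-v)..V, (X.O (y, v) + |X.n (y, v)| + |X.r (y, v) * X.pu (y, v)|) ≤ L ∧
      (∀ u ∈ Icc (-v) V, 1 / L ≤ X.r (u, v) ∧ X.r (u, v) ≤ L) ∧
      |X.l (-v, v)| ≤ L ∧ |X.pv (-v, v)| ≤ L) : Pri (L ^ 10) V R h X := by
  have C := cc_of hX
  have hL0 : 0 < L := by linarith
  have pw : ∀ {i j : ℕ}, i ≤ j → L ^ i ≤ L ^ j := fun hij => pow_le_pow_right₀ (by linarith) hij
  have pos : ∀ q, 0 < X.r q := fun q => hX.pos (mem_univ q)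
  have hr : ∀ q ∈ Om V R h, |X.r q| ≤ L := fun q hq => by
    rw [abs_of_pos (pos q)]
    exact ((hb q.2 hq.1).2.1 q.1 hq.2).2
  have hi : ∀ q ∈ Om V R h, (X.r q)⁻¹ ≤ L := fun q hq => by
    have := ((hb q.2 hq.1).2.1 q.1 hq.2).1
    rw [one_div] at this
    exact inv_le_of_inv_le₀ hL0 this
  have hint : ∀ (c : ℝ), 0 ≤ c → ∀ v ∈ Icc R (R + h),
      ∫ y in (-v)..V, c * wX X (y, v) ≤ c * L := fun c hc v hv => by
    rw [intervalIntegral.integral_const_mul]
    exact mul_le_mul_of_nonneg_left (hb v hv).1 hc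
  have dg : ∀ q ∈ Om V R h, (-q.2, q.2) ∈ Om V R h := fun q hq =>
    ⟨hq.1, le_rfl, hq.2.1.trans hq.2.2⟩
  have div : ∀ {q : P2} {x B : ℝ}, q ∈ Om V R h → |X.r q * x| ≤ B → |x| ≤ L * B := by
    intro q x B hq hx
    have e : x = (X.r q)⁻¹ * (X.r q * x) := by rw [inv_mul_cancel_left₀ (pos q).ne']
    rw [e, abs_mul, abs_of_pos (inv_pos.2 (pos q))]
    exact mul_le_mul (hi q hq) hx (abs_nonneg _) hL0.le
  have hl : ∀ q ∈ Om V R h, |X.l q| ≤ L ^ 6 := by
    intro q hq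
    have h1 := int_u_le (f := fun q => X.r q * X.l q) (g := hH e X) (m := fun q => L ^ 3 * wX X q)
      (fun q => (hX.sol q (mem_univ q)).rl_u) C.H (continuous_const.mul C.W) hq.2 fun y hy => by
        have a1 := hi (y, q.2) ⟨hq.1, hy⟩
        have a2 := inv_pos.2 (pos (y, q.2))
        have a3 := (wX_ge X (y, q.2)).1
        have a4 := O_pos X (y, q.2)
        have a5 : e ^ 2 / X.r (y, q.2) ^ 2 ≤ L ^ 3 := by
          rw [div_eq_mul_inv, ← inv_pow, show L ^ 3 = L * L ^ 2 by ring]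
          gcongr
        have a6 : 0 ≤ e ^ 2 / X.r (y, q.2) ^ 2 := by positivity
        have a7 : 1 ≤ L ^ 3 := one_le_pow₀ (by linarith)
        have a8 : |1 - e ^ 2 / X.r (y, q.2) ^ 2| ≤ L ^ 3 := abs_le.2 ⟨by linarith, by linarith⟩
        rw [hH, abs_mul, abs_neg, abs_of_pos (by positivity), mul_comm]
        exact mul_le_mul a8 (by linarith) (by positivity) (by positivity)
    have h2 := hint (L ^ 3) (by positivity) q.2 hq.1
    have h3 : |X.r (-q.2, q.2) * X.l (-q.2, q.2)| ≤ L * L := by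
      rw [abs_mul]
      exact mul_le_mul (hr _ (dg q hq)) (hb q.2 hq.1).2.2.1 (abs_nonneg _) hL0.le
    have h4 := abs_add_le (X.r q * X.l q - X.r (-q.2, q.2) * X.l (-q.2, q.2))
      (X.r (-q.2, q.2) * X.l (-q.2, q.2))
    rw [sub_add_cancel] at h4
    have h5 : L * L ≤ L ^ 4 := by simpa only [sq] using pw (show 2 ≤ 4 by norm_num)
    have h6 : |X.r q * X.l q| ≤ L ^ 5 := by
      have : L ^ 4 + L ^ 4 ≤ L ^ 5 := by simpa using Df.two_le hL zero_le_one 4
      have e : L ^ 3 * L = L ^ 4 := by ring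
      linarith
    exact (div hq h6).trans (le_of_eq (by ring))
  have hpv : ∀ q ∈ Om V R h, |X.pv q| ≤ L ^ 10 := by
    intro q hq
    have h1 := int_u_le (f := fun q => X.r q * X.pv q) (g := fun q => -(X.l q * X.pu q))
      (m := fun q => L ^ 7 * wX X q) (fun q => (hX.sol q (mem_univ q)).th_u) (C.l.mul C.pu).neg
      (continuous_const.mul C.W) hq.2 fun y hy => by
        have a1 := div (q := (y, q.2)) ⟨hq.1, hy⟩ (wX_ge X (y, q.2)).2.2.1
        rw [abs_neg, abs_mul]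
        exact (mul_le_mul (hl (y, q.2) ⟨hq.1, hy⟩) a1 (abs_nonneg _) (by positivity)).trans
          (le_of_eq (by ring))
    have h2 := hint (L ^ 7) (by positivity) q.2 hq.1
    have h3 : |X.r (-q.2, q.2) * X.pv (-q.2, q.2)| ≤ L * L := by
      rw [abs_mul]
      exact mul_le_mul (hr _ (dg q hq)) (hb q.2 hq.1).2.2.2 (abs_nonneg _) hL0.le
    have h4 := abs_add_le (X.r q * X.pv q - X.r (-q.2, q.2) * X.pv (-q.2, q.2))
      (X.r (-q.2, q.2) * X.pv (-q.2, q.2))
    rw [sub_add_cancel] at h4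
    have h5 : L * L ≤ L ^ 8 := by simpa only [sq] using pw (show 2 ≤ 8 by norm_num)
    have h6 : |X.r q * X.pv q| ≤ L ^ 9 := by
      have : L ^ 8 + L ^ 8 ≤ L ^ 9 := by simpa using Df.two_le hL zero_le_one 8
      have e : L ^ 7 * L = L ^ 8 := by ring
      linarith
    exact (div hq h6).trans (le_of_eq (by ring))
  have hL10 : L ≤ L ^ 10 := by simpa using pw (show 1 ≤ 10 by norm_num)
  exact ⟨fun q hq => (hr q hq).trans hL10, fun q hq => (hi q hq).trans hL10,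
    fun q hq => (hl q hq).trans (pw (by norm_num)), hpv, fun v hv => (hb v hv).1.trans hL10⟩

/-- The final algebra. -/
theorem close_strip {p h P a b c d f g k : ℝ} (hp : 2 ≤ p) (hh : 0 ≤ h) (hP : 0 ≤ P)
    (a0 : 0 ≤ a) (c0 : 0 ≤ c) (f0 : 0 ≤ f) (hs : h * (22 * p ^ 3) ≤ 1)
    (hb : b ≤ p * (h * P + (a + c + f))) (hd : d ≤ p * (h * P + (a + c + f)))
    (hg : g ≤ p * (P + (a + c + f) + b)) (hk : k ≤ p * (P + (a + c + f) + b + g + d))
    (ha : a ≤ h * b) (hc : c ≤ p * h * P + h * k) (hf : f ≤ h * (p * (P + g + d))) :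
    a + c + f ≤ 22 * p ^ 3 * h * P := by
  set X := a + c + f with hX
  have X0 : 0 ≤ X := by positivity
  have p0 : 0 ≤ p := by linarith
  have p1 : p ≤ p ^ 2 := by nlinarith
  have p2 : p ^ 2 ≤ p ^ 3 := by nlinarith
  have h1 : h ≤ 1 := by nlinarith
  set Y := P + X with hY
  have Y0 : 0 ≤ Y := by positivity
  have hPY : h * P + X ≤ Y := by nlinarith
  have q0 : Y ≤ p * Y := by nlinarith
  have q1 : p * Y ≤ p ^ 2 * Y := mul_le_mul_of_nonneg_right p1 Y0
  have q2 : p ^ 2 * Y ≤ p ^ 3 * Y := mul_le_mul_of_nonneg_right p2 Y0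
  have b1 : b ≤ p * Y := hb.trans (mul_le_mul_of_nonneg_left hPY p0)
  have d1 : d ≤ p * Y := hd.trans (mul_le_mul_of_nonneg_left hPY p0)
  have g1 : g ≤ 2 * (p ^ 2 * Y) :=
    hg.trans ((mul_le_mul_of_nonneg_left (show Y + b ≤ 2 * (p * Y) by linarith) p0).trans
      (le_of_eq (by ring)))
  have k1 : k ≤ 5 * (p ^ 3 * Y) :=
    hk.trans ((mul_le_mul_of_nonneg_left (show Y + b + g + d ≤ 5 * (p ^ 2 * Y) by linarith)
      p0).trans (le_of_eq (by ring)))
  have f1 : p * (P + g + d) ≤ 4 * (p ^ 3 * Y) :=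
    (mul_le_mul_of_nonneg_left (show P + g + d ≤ 4 * (p ^ 2 * Y) by linarith) p0).trans
      (le_of_eq (by ring))
  have c1 : p * P ≤ p * Y := mul_le_mul_of_nonneg_left (by linarith) p0
  have s1 : X ≤ h * (b + (p * P + k) + p * (P + g + d)) := by rw [hX]; linarith
  have s2 : X ≤ h * (11 * (p ^ 3 * Y)) := s1.trans (mul_le_mul_of_nonneg_left (by linarith) hh)
  have s3 := mul_le_mul_of_nonneg_right hs X0
  rw [hY] at s2
  nlinarith

end Vale.Agent.P354W
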